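import Vale.Agent.P366P.Ric

/-!
# P366XR: the identity of Raychaudhuri for the fronts of the eikonal equation. Statements.
-/

open Filter Topology
open scoped ContDiff
open Vale.Agent.P366.Stmt Vale.Agent.P366Z
open Vale.Agent.P366Y.C (rc)
open Vale.Agent.P366P (cd)

noncomputable section

namespace Vale.Agent.P366XR

variable {n : ℕ}

/-- the covariant derivative `D_k T_ij` -/
def cT (g T : Field n) (k i j : Fin n) (x : E n) : ℝ :=
  pd k (fun y => T y i j) x - ∑ l, (chr g l k i x * T x l j + chr g l k j x * T x i l)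

/-- the first equation: `D_i X_j + D_j X_i = - 2 N K_ij`; `X` is a vector field -/
def Kid (g K : Field n) (N : E n → ℝ) (X : Fin n → E n → ℝ) (x : E n) : Prop :=
  ∀ i j, ∑ k, (g x j k * cd g X k i x + g x i k * cd g X k j x) = -2 * N x * K x i j

/-- the defect of the second equation: `Hess N + L_X K - N (Ric + (tr K) K - 2 K K)` -/
def EE (g K : Field n) (N : E n → ℝ) (X : Fin n → E n → ℝ) : Field n := fun x i j =>
  hess g N x i j + ∑ k, (X k x * cT g K k i j x + K x k j * cd g X k i x + K x i k * cd g X k j x) -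
    N x * (rc g x i j + tr g K x * K x i j - 2 * ∑ k, ∑ l, K x i k * up g k l x * K x l j)

/-- `N Ric (l, l)` of the development for `l = n + ν`, `ν` the unit normal of the level set -/
def Nc (g K : Field n) (N : E n → ℝ) (X : Fin n → E n → ℝ) (u : E n → ℝ) (x : E n) : ℝ :=
  2 * N x * (mu g K x + ∑ j, mom g K j x * nrm g u j x) + trS g (EE g K N X) u x

/-- the velocity of the fronts -/
def el (g : Field n) (N : E n → ℝ) (X : Fin n → E n → ℝ) (u : E n → ℝ) (i : Fin n) (x : E n) : ℝ :=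
  N x * nrm g u i x - X i x

/-- the inaffinity -/
def sg (g K : Field n) (N u : E n → ℝ) (x : E n) : ℝ :=
  ∑ i, nrm g u i x * pd i N x + N x * ∑ i, ∑ j, K x i j * nrm g u i x * nrm g u j x

/-- **RAYI**: the inequality of Raychaudhuri -/
def RAYI : Prop := ∀ (n : ℕ) (g K : Field n) (N u : E n → ℝ) (X : Fin n → E n → ℝ) (c : ℝ)
  (x : E n), Met g → (∀ i j, Smooth fun y => K y i j) → (∀ y i j, K y i j = K y j i) →
  ContDiffAt ℝ 2 N x → (∀ i, ContDiffAt ℝ 2 (X i) x) → ContDiffAt ℝ 3 u x → 0 < gn g u x →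
  (∀ᶠ y in 𝓝 x, N y * gn g u y - ∑ i, X i y * pd i u y = c) → (∀ᶠ y in 𝓝 x, Kid g K N X y) →
  0 ≤ N x → DifferentiableAt ℝ (thetaPlus g K u) x ∧
    ∑ i, el g N X u i x * pd i (thetaPlus g K u) x ≤
      sg g K N u x * thetaPlus g K u x - Nc g K N X u x

end Vale.Agent.P366XR
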