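import Vale.Agent.P366XR.Vis
import Vale.Agent.P366K.Defs
import Vale.Agent.P366M.Apx
import Vale.Agent.P366M.Calc

/-!
# P366XR: the multiplier identity for variations with compact support, in a chart
-/

set_option linter.all false

open MeasureTheory Filter Topology Matrix Set
open scoped ContDiff
open Vale.Agent.P366 Vale.Agent.P366M Vale.Agent.P366K
open Vale.Agent.P366.Stmt (E Field BigO flx len)
open Vale.Agent.P366Y.C (Sy)
open Vale.Agent.P366MM (sq)

noncomputable section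

namespace Vale.Agent.P366XR.L

variable {n : ℕ} {M : Type}

/-! ### functions which vanish far out -/

theorem pd_far {f : E n → ℝ} {R : ℝ} (h : ∀ y, R < len y → f y = 0) (i : Fin n) (y : E n)
    (hy : R < len y) : Stmt.pd i f y = 0 := by
  rw [P366Z.pd_congr (h := fun _ => 0) (((isOpen_lt continuous_const continuous_norm).eventually_mem
    hy).mono fun z hz => h z hz), P366Z.pd_const]

theorem bigO_far {f : E n → ℝ} {R : ℝ} (h : ∀ y, R < len y → f y = 0) (q : ℝ) : BigO q f :=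
  ⟨0, R, fun y hy => by simp [h y hy]⟩

theorem flx_far {W : Fin n → E n → ℝ} {R : ℝ} (h : ∀ i y, R < len y → W i y = 0) :
    Tendsto (flx W) atTop (𝓝 0) := by
  refine tendsto_const_nhds.congr' ((eventually_gt_atTop (max R 0)).mono fun r hr => ?_)
  have : ∀ θ : Metric.sphere (0 : E n) 1, R < len (r • (θ : E n)) := fun θ => by
    rw [len, norm_smul, norm_eq_of_mem_sphere θ, mul_one]
    exact ((le_max_left _ _).trans_lt hr).trans_le (le_abs_self r)
  simp [flx, Stmt.sphInt, Stmt.sph, h _ _ (this _)]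

theorem quad_bd {g T : Field n} (hg : P366Z.Met g) (hT : Sm T) {B : Set (E n)} (hB : IsCompact B) :
    ∃ C, ∀ y ∈ B, ∀ v : Fin n → ℝ, v ⬝ᵥ Stmt.mat g y *ᵥ v = 1 → |v ⬝ᵥ Stmt.mat T y *ᵥ v| ≤ C := by
  have p : Continuous fun z : E n × (Fin n → ℝ) => ((((0 : ℝ), z.1), z.2) : (ℝ × E n) × _) := by
    fun_prop
  have k : ∀ y v, v ≠ 0 → 0 < v ⬝ᵥ Stmt.mat g y *ᵥ v := fun y v hv => by
    rw [← quad_mat]; exact hg.g_pos y hv
  obtain ⟨C, hC⟩ := (hB.prod (isCompact_sphere (0 : Fin n → ℝ) 1)).exists_bound_of_continuousOn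
    (((cont_q hT).comp p).continuousOn.div ((cont_q hg.sm).comp p).continuousOn fun z hz =>
      (k z.1 z.2 fun e => by simpa [e] using hz.2).ne')
  refine ⟨C, fun y hy v hv => ?_⟩
  have v0 : 0 < ‖v‖ := norm_pos_iff.2 fun e => by simp [e] at hv
  have := hC (y, ‖v‖⁻¹ • v) ⟨hy, by simp [norm_smul, v0.ne']⟩
  simp only [Pi.div_apply, Function.comp, mulVec_smul, dotProduct_smul, smul_dotProduct,
    smul_eq_mul, hv, Real.norm_eq_abs] at this
  rwa [mul_div_mul_left _ _ (by positivity), mul_div_mul_left _ _ (by positivity), div_one] at this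

section L0

variable [Mf0 n M] {e : Ch n M} {B : Set (E n)} {T : Field n} {g K H Q : Fld n M} {x : M}

/-- the extension by zero of a covariant tensor in the chart `e` -/
def zt (e : Ch n M) (T : Field n) : Fld n M :=
  zx e fun y i j => (((J e y)⁻¹)ᵀ * Stmt.mat T y * (J e y)⁻¹) i j

theorem mat_zt (he : e ∈ At M) (T : Field n) (y : E n) :
    mat (zt e T) (e.symm y) = ((J e y)⁻¹)ᵀ * Stmt.mat T y * (J e y)⁻¹ :=
  zx_symm he (fun y i j => (((J e y)⁻¹)ᵀ * Stmt.mat T y * (J e y)⁻¹) i j) y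

theorem rep_zt (he : e ∈ At M) (T : Field n) : rep e (zt e T) = T := by
  funext y
  have h1 := mat_rep e (zt e T) y
  rw [mat_zt he, Matrix.mul_assoc, Matrix.mul_assoc, J_inv_mul he, Matrix.mul_one, ← Matrix.mul_assoc,
    ← transpose_mul, J_inv_mul he, transpose_one, Matrix.one_mul] at h1
  exact h1

theorem zt_zero (h : ∀ y ∉ B, T y = 0) (x : M) (hx : x ∉ e.symm '' B) : zt e T x = 0 :=
  zx_zero (fun y hy => by
    funext i j
    rw [show Stmt.mat T y = 0 from h y hy]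
    simp) hx

theorem sym_zt (he : e ∈ At M) (hB : IsCompact B) (h : ∀ y ∉ B, T y = 0) (hT : Sy T) :
    Sym (zt e T) := by
  refine ⟨smT_of fun x => ?_, fun x i j => ?_⟩
  · by_cases hx : x ∈ e.symm '' B
    · exact ⟨e, he, image_sub he B hx, fun i j => by
        rw [rep_zt he]; exact ContDiff.contDiffAt (hT.sm i j)⟩
    · refine ⟨ch x, ch_mem x, mem_ch x, fun i j => ?_⟩
      refine (ContDiff.contDiffAt (smT_zero _ (ch_mem x) i j)).congr_of_eventuallyEq
        ((rep_congr_pt (T := zt e T) (T' := fun _ _ _ => 0) ?_).mono fun z hz => by simp only [hz])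
      exact Eventually.mono ((cpt_image he hB).isClosed.isOpen_compl.mem_nhds hx) fun z hz =>
        zt_zero h z hz
  · by_cases hx : x ∈ e.symm '' B
    · obtain ⟨y, -, rfl⟩ := hx
      have h2 : (mat (zt e T) (e.symm y))ᵀ = mat (zt e T) (e.symm y) := by
        rw [mat_zt he, transpose_mul, transpose_mul, transpose_transpose, Matrix.mul_assoc,
          show (Stmt.mat T y)ᵀ = Stmt.mat T y from Matrix.ext fun i j => hT.sy y j i]
      exact congrFun (congrFun h2 j) i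
    · rw [zt_zero h x hx]
      rfl

theorem fam_ev (g : Fld n M) (h : H =ᶠ[𝓝 x] 0) (t : ℝ) : fam g H t =ᶠ[𝓝 x] g :=
  h.mono fun z hz => by
    funext i j
    simp [fam, hz]

theorem dmu_zero (h : H =ᶠ[𝓝 x] 0) (k : Q =ᶠ[𝓝 x] 0) : dmu g K H Q x = 0 := by
  simp [dmu, fun t => mu_of_ev (fam_ev g h t) (fam_ev K k t).eq_of_nhds]

theorem dmo_zero (h : H =ᶠ[𝓝 x] 0) (k : Q =ᶠ[𝓝 x] 0) (j : Fin n) : dmo g K H Q j x = 0 := by
  simp [dmo, fun t => mom_of_ev (fam_ev g h t) (fam_ev K k t), h.eq_of_nhds]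

theorem dth_zero (F : M → ℝ) (h : H =ᶠ[𝓝 x] 0) (k : Q =ᶠ[𝓝 x] 0) : dth g K F H Q x = 0 := by
  have : ∀ t, thetaPlus (fam g H t) (fam K Q t) F x = thetaPlus g K F x := fun t => by
    simp only [thetaPlus, trS, tr, nrm, covNorm, up, mat, hess_of_ev (fam_ev g h t),
      (fam_ev g h t).eq_of_nhds, (fam_ev K k t).eq_of_nhds]
  simp [dth, this]

theorem lin_zero (h : H =ᶠ[𝓝 x] 0) (k : Q =ᶠ[𝓝 x] 0) (v : Fin n → ℝ) : lin g K H Q x v = 0 := by
  simp [lin, dmu_zero h k, dmo_zero h k]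

theorem ar_zero (h : H x = 0) (v : Fin n → ℝ) : ar g H x v = 0 := by simp [ar, tr, h]

/-- the components in the chart `e` of the vector `v` at `e.symm y` -/
def vc (e : Ch n M) (y : E n) (v : Fin n → ℝ) : Fin n → ℝ := (J e y)⁻¹ *ᵥ v

theorem dot_vc (he : e ∈ At M) (w : Fin n → M → ℝ) (y : E n) (v : Fin n → ℝ) :
    ∑ j, w j (e.symm y) * v j = ∑ j, repC e w j y * vc e y v j :=
  (dot_rep he w (fun i _ => v i) y).symm

theorem quad_vc (he : e ∈ At M) (H : Fld n M) (y : E n) (v : Fin n → ℝ) :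
    ∑ i, ∑ j, H (e.symm y) i j * v i * v j = ∑ i, ∑ j, rep e H y i j * vc e y v i * vc e y v j :=
  (quad_rep he H (fun i _ => v i) (fun i _ => v i) y).symm

theorem ar_vc (he : e ∈ At M) (g H : Fld n M) (y : E n) (v : Fin n → ℝ) :
    ar g H (e.symm y) v = (Stmt.tr (rep e g) (rep e H) y -
      ∑ i, ∑ j, rep e H y i j * vc e y v i * vc e y v j) / 2 := by
  rw [ar, quad_vc he, tr_rep he]

theorem en_vc (hg : Met g) (hK : SmT K) (he : e ∈ At M) (y : E n) (v : Fin n → ℝ) :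
    en g K (e.symm y) v = Stmt.mu (rep e g) (rep e K) y +
      ∑ j, Stmt.mom (rep e g) (rep e K) j y * vc e y v j := by
  rw [en, dot_vc he, repC_mom hg he hK, ← loc_mu hg he]
  rfl

theorem lin_vc (hR : REP) (hg : Met g) (hK : Sym K) (hH : Sym H) (hQ : Sym Q) (he : e ∈ At M)
    (y : E n) (v : Fin n → ℝ) : lin g K H Q (e.symm y) v =
      C.Lmu (rep e g) (rep e K) (rep e H) (rep e Q) y +
        ∑ j, C.Lmo (rep e g) (rep e K) (rep e H) (rep e Q) j y * vc e y v j := by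
  obtain ⟨h1, h2, -⟩ := (hR n M g K H Q (fun _ => 0) hg hK hH hQ cd_const).1 e he y
  simp only [lin, dot_vc he, h1, h2]

end L0

variable [Mfe n M] {D : Exterior n M} {H Q : Fld n M} {B : Set M} {m κ R1 R2 ε c l : ℝ}
  {P : Fin n → ℝ} {Z : Fin n → M → ℝ} {W : Type} [MeasurableSpace W] {π : W → M}
  {ν : W → Fin n → ℝ} {α β : Measure W} {η : Measure M}

theorem ev_zero (hB : IsCompact B) (h : ∀ x ∉ B, H x = 0) {x : M} (hx : x ∉ B) : H =ᶠ[𝓝 x] 0 :=
  Eventually.mono (hB.isClosed.isOpen_compl.mem_nhds hx) h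

theorem var_cpt (D : Exterior n M) (ε : ℝ) (hH : Sym H) (hQ : Sym Q) (hB : IsCompact B)
    (h : ∀ x ∉ B, H x = 0) (k : ∀ x ∉ B, Q x = 0) : Var D ε H Q 0 0 0 := by
  obtain ⟨R, -, hR⟩ := bdd_px hB
  have f : ∀ y : E n, max R (R0 M) < len y → (yp y : M) ∉ B := fun y hy e => by
    have h1 := hR _ e
    rw [yp, Mfs.px_ye _ y (by linarith [le_max_right R (R0 M), show len y = ‖y‖ from rfl])] at h1
    exact ((le_max_left _ _).trans_lt hy).not_ge h1
  have h0 : ∀ i j y, max R (R0 M) < len y → fe H y i j = 0 := fun i j y hy => by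
    rw [fe, h _ (f y hy)]; rfl
  have k0 : ∀ i j y, max R (R0 M) < len y → fe Q y i j = 0 := fun i j y hy => by
    rw [fe, k _ (f y hy)]; rfl
  refine ⟨⟨hH, hQ, fun i j a b => ⟨bigO_far (h0 i j) _, bigO_far (pd_far (h0 i j) a) _,
    bigO_far (pd_far (pd_far (h0 i j) a) b) _, bigO_far (k0 i j) _, bigO_far (pd_far (k0 i j) a) _⟩,
    flx_far (R := max R (R0 M)) fun i y hy => ?_, fun i => flx_far (R := max R (R0 M))
      fun j y hy => ?_⟩, fun δ hδ => ⟨R, fun x hx v _ => ?_⟩⟩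
  · simp [pd_far (h0 _ _) _ y hy]
  · simp [k0 _ _ y hy]
  · have : x ∉ B := fun e => hx.not_ge (hR x e)
    simp [lin_zero (ev_zero hB h this) (ev_zero hB k this), hδ.le]

/-- the identity for variations with compact support in the interior -/
theorem id_cpt (hM : Mm D m P κ R1 R2 ε Z π ν α β η c l) (hH : Sym H) (hQ : Sym Q)
    (hB : IsCompact B) (hF : ∀ x ∈ B, 0 < D.F x) (h : ∀ x ∉ B, H x = 0) (k : ∀ x ∉ B, Q x = 0) :
    ∫ w, wt ε (π w) * lin D.g D.K H Q (π w) (ν w) ∂α + ∫ w, ar D.g H (π w) (ν w) ∂β = 0 := by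
  have h1 := hM.id H Q 0 0 0 (var_cpt D ε hH hQ hB h k)
  have h2 : ∫ x, dth D.g D.K D.F H Q x ∂η = 0 := integral_eq_zero_of_ae (hM.sη.mono fun x hx =>
    have : x ∉ B := fun e => (hF x e).ne' hx
    dth_zero _ (ev_zero hB h this) (ev_zero hB k this))
  simpa [h2, dm] using h1

theorem cont_wt (ε : ℝ) : Continuous (wt ε : M → ℝ) :=
  (continuous_const.add (cont_npx.pow 2)).rpow_const fun x => .inl (add_pos_of_pos_of_nonneg one_pos (sq_nonneg _)).ne'

theorem bd_cpt {f : M → ℝ} (hf : Continuous f) (hB : IsCompact B) (h : ∀ x ∉ B, f x = 0) :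
    ∃ C, ∀ x, f x ≤ C := by
  obtain ⟨C, hC⟩ := hf.bounded_above_of_compact_support (HasCompactSupport.intro hB h)
  exact ⟨C, fun x => (le_abs_self _).trans (hC x)⟩

variable {N : M → ℝ} {X : Fin n → M → ℝ} {e : Ch n M} {A : Set (E n)} {h k : Field n}

/-- the integral with respect to `α` in a chart -/
theorem int_rep (hR : REP) (hP : Rp D ε π ν α N X) (he : e ∈ At M) (hh : Sy h) (hk : Sy k)
    (hA : IsCompact A) (hF : ∀ y ∈ A, 0 < D.F (e.symm y)) (h0 : ∀ y ∉ A, h y = 0)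
    (k0 : ∀ y ∉ A, k y = 0) :
    ∫ w, wt ε (π w) * lin D.g D.K (zt e h) (zt e k) (π w) (ν w) ∂α =
      ∫ y, (loc e N y * C.Lmu (rep e D.g) (rep e D.K) h k y +
        ∑ j, repV e X j y * C.Lmo (rep e D.g) (rep e D.K) h k j y) * P366Z.dens (rep e D.g) y := by
  have hB := cpt_image he hA
  obtain ⟨r1, r2, r3, -⟩ := hR n M D.g D.K (zt e h) (zt e k) (fun _ => 0) D.met ⟨D.smK, D.syK⟩
    (sym_zt he hA h0 hh) (sym_zt he hA k0 hk) cd_const
  have z1 := fun x hx => dmu_zero (g := D.g) (K := D.K) (ev_zero hB (zt_zero h0) (x := x) hx)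
    (ev_zero hB (zt_zero k0) hx)
  have z2 := fun x hx => dmo_zero (g := D.g) (K := D.K) (ev_zero hB (zt_zero h0) (x := x) hx)
    (ev_zero hB (zt_zero k0) hx)
  have r4 : CC 0 (dmo D.g D.K (zt e h) (zt e k)) := r3.of_le zero_le
  obtain ⟨C1, c1⟩ := bd_cpt ((cont_wt ε).mul r2.cont.abs) hB fun x hx => by simp [z1 x hx]
  obtain ⟨C2, c2⟩ := bd_cpt ((cont_wt ε).mul (D.met.cont_covNorm r4)) hB fun x hx => by
    simp [covNorm, z2 x hx]
  have z3 : ∀ x ∉ e.symm '' A, N x * dmu D.g D.K (zt e h) (zt e k) x +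
      ∑ j, X j x * dmo D.g D.K (zt e h) (zt e k) j x = 0 := fun x hx => by simp [z1 x hx, z2 x hx]
  refine ((hP.rep _ _ r2.cont r4 ⟨max C1 C2, fun x _ => ⟨(c1 x).trans (le_max_left _ _),
    (c2 x).trans (le_max_right _ _)⟩⟩).2.trans ?_)
  rw [setIntegral_eq_integral_of_forall_compl_eq_zero fun x hx => by
    rw [z3 x fun ⟨y, hy, e⟩ => hx (e ▸ (hF y hy).le), zero_mul],
    integral_dens_chart he D.g fun x hx => z3 x fun k => hx (image_sub he A k)]
  refine integral_congr_ae (.of_forall fun y => ?_)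
  have := dot_rep he (dmo D.g D.K (zt e h) (zt e k)) X y
  simp only [(r1 e he y).2.1, rep_zt he, mul_comm _ (repV e X _ y), mul_comm _ (X _ _)] at this
  simp only [(r1 e he y).1, rep_zt he, this, loc]

/-- **the multiplier identity in a chart** -/
theorem id_chart (hR : REP) (hM : Mm D m P κ R1 R2 ε Z π ν α β η c l) (hP : Rp D ε π ν α N X)
    (he : e ∈ At M) (hh : Sy h) (hk : Sy k) (hA : IsCompact A) (hF : ∀ y ∈ A, 0 < D.F (e.symm y))
    (h0 : ∀ y ∉ A, h y = 0) (k0 : ∀ y ∉ A, k y = 0) :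
    ∫ y, (loc e N y * C.Lmu (rep e D.g) (rep e D.K) h k y +
      ∑ j, repV e X j y * C.Lmo (rep e D.g) (rep e D.K) h k j y) * P366Z.dens (rep e D.g) y =
      -∫ w, ar D.g (zt e h) (π w) (ν w) ∂β := by
  rw [← int_rep hR hP he hh hk hA hF h0 k0, eq_neg_iff_add_eq_zero]
  exact id_cpt hM (sym_zt he hA h0 hh) (sym_zt he hA k0 hk) (cpt_image he hA)
    (fun x ⟨y, hy, e⟩ => e ▸ hF y hy) (zt_zero h0) (zt_zero k0)

theorem int_ar (hM : Mm D m P κ R1 R2 ε Z π ν α β η c l) (he : e ∈ At M) (hh : Sy h)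
    (hA : IsCompact A) (h0 : ∀ y ∉ A, h y = 0) :
    Integrable (fun w => ar D.g (zt e h) (π w) (ν w)) β := by
  have := hM.fβ
  have s := (sym_zt he hA h0 hh).sm
  obtain ⟨C1, c1⟩ := bd_cpt (D.met.sm_tr s).cont.abs (cpt_image he hA) fun x hx => by
    simp [tr, zt_zero h0 x hx]
  obtain ⟨C2, c2⟩ := quad_bd (D.met.rep he) hh.sm hA
  refine ((Integrable.of_bound ((D.met.sm_tr s).cont.measurable.comp hM.mπ).aestronglyMeasurable
    C1 (.of_forall fun w => c1 _)).sub (Integrable.of_bound (hM.m2 _ s).aestronglyMeasurable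
    (max C2 0) (.of_forall fun w => ?_))).div_const 2
  by_cases k : π w ∈ e.symm '' A
  · obtain ⟨y, hy, e1⟩ := k
    have u := hM.unit w
    rw [P366MM.sq, ← e1, quad_vc he, quad_mat] at u ⊢
    rw [rep_zt he]
    exact (c2 y hy _ u).trans (le_max_left _ _)
  · simp [P366MM.sq, zt_zero h0 _ k]

end Vale.Agent.P366XR.L
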