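import Vale.Agent.P366XR.Defs
import Vale.Agent.P366P.Pull

/-!
# P366XR: covariant calculus in a chart, in matrix form
-/

set_option linter.all false

open Filter Topology Matrix
open scoped ContDiff
open Vale.Agent.P366.Stmt Vale.Agent.P366Z
open Vale.Agent.P366Y.C (rc)
open Vale.Agent.P366P (cd diff_cd pd_cd dv_eq_cd dv_ev)

noncomputable section

namespace Vale.Agent.P366XR

variable {n : ℕ}

abbrev Vf (n : ℕ) := Fin n → E n → ℝ
abbrev Mx (n : ℕ) := Matrix (Fin n) (Fin n) ℝ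

/-- the value of a vector field, the differential, the derivative along a vector field -/
def ev (Y : Vf n) (x : E n) : Fin n → ℝ := fun i => Y i x
def dd (f : E n → ℝ) (x : E n) : Fin n → ℝ := fun j => pd j f x
def D (Y : Vf n) (f : E n → ℝ) (x : E n) : ℝ := ev Y x ⬝ᵥ dd f x
/-- the covariant derivatives -/
def Dm (g : Field n) (Z : Vf n) (x : E n) : Mx n := of fun i j => cd g Z i j x
def nab (g : Field n) (Y Z : Vf n) : Vf n := fun i x => (Dm g Z x *ᵥ ev Y x) i
def cM (g T : Field n) (k : Fin n) (x : E n) : Mx n := of fun i j => cT g T k i j x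
def cX (g T : Field n) (v : Fin n → ℝ) (x : E n) : Mx n := ∑ k, v k • cM g T k x
def gM (g : Field n) (k : Fin n) (x : E n) : Mx n := of fun i l => chr g i k l x
/-- tensors on vector fields -/
def bl (T : Field n) (Y Z : Vf n) (x : E n) : ℝ := ev Y x ⬝ᵥ mat T x *ᵥ ev Z x
def lo (T : Field n) (Y : Vf n) : Vf n := fun i x => (mat T x *ᵥ ev Y x) i
def hi (g : Field n) (w : Vf n) : Vf n := fun i x => ((mat g x)⁻¹ *ᵥ ev w x) i
/-- the matrices of coordinate derivatives -/
def pM (A : E n → Mx n) (k : Fin n) (x : E n) : Mx n := of fun i j => pd k (fun y => A y i j) x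
def pV (k : Fin n) (Y : Vf n) : Vf n := fun i => pd k (Y i)

def Df (Y : Vf n) (x : E n) : Prop := ∀ i, DifferentiableAt ℝ (Y i) x
def C2 (Y : Vf n) (x : E n) : Prop := ∀ i, ContDiffAt ℝ 2 (Y i) x
def Sm (T : Field n) : Prop := ∀ i j, Smooth fun y => T y i j

variable {g T : Field n} {x : E n} {W Y Z : Vf n} {f h : E n → ℝ}

theorem C2.df (h : C2 Y x) : Df Y x := fun i => diff2 (h i)
theorem C2.ev (h : C2 Y x) : ∀ᶠ y in 𝓝 x, Df Y y := eventually_all.2 fun i => ev_diff (h i)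

theorem ev_nab (g : Field n) (Y Z : Vf n) (x : E n) : ev (nab g Y Z) x = Dm g Z x *ᵥ ev Y x := rfl
theorem ev_lo (T : Field n) (Y : Vf n) (x : E n) : ev (lo T Y) x = mat T x *ᵥ ev Y x := rfl
theorem ev_hi (g : Field n) (w : Vf n) (x : E n) : ev (hi g w) x = (mat g x)⁻¹ *ᵥ ev w x := rfl

theorem cM_eq (g T : Field n) (k : Fin n) (x : E n) :
    cM g T k x = pM (mat T) k x - ((gM g k x)ᵀ * mat T x + mat T x * gM g k x) := by
  ext i j
  simp only [cM, cT, pM, gM, of_apply, Matrix.sub_apply, Matrix.add_apply, mul_apply,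
    transpose_apply, Finset.sum_add_distrib, mul_comm (mat T x i _)]
  rfl

theorem Dm_col (g : Field n) (Z : Vf n) (k : Fin n) (x : E n) :
    (fun i => Dm g Z x i k) = ev (pV k Z) x + gM g k x *ᵥ ev Z x := rfl

theorem mul_col (A : Mx n) (v : Fin n → ℝ) : A *ᵥ v = ∑ k, v k • fun i => A i k := by
  ext i
  simp [mulVec, dotProduct, mul_comm]

theorem df_mul {A : E n → Mx n} (hA : ∀ i j, DifferentiableAt ℝ (fun y => A y i j) x) (hY : Df Y x) :
    Df (fun i y => (A y *ᵥ ev Y y) i) x := fun i =>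
  DifferentiableAt.fun_sum (u := Finset.univ) fun j _ => (hA i j).fun_mul (hY j)

theorem pV_mul {A : E n → Mx n} (hA : ∀ i j, DifferentiableAt ℝ (fun y => A y i j) x) (hY : Df Y x)
    (k : Fin n) : ev (pV k fun i y => (A y *ᵥ ev Y y) i) x =
      pM A k x *ᵥ ev Y x + A x *ᵥ ev (pV k Y) x := by
  ext i
  refine (pd_sum Finset.univ (F := fun j y => A y i j * Y j y)
    (fun j _ => (hA i j).fun_mul (hY j)) k).trans ?_
  simp only [pd_mul (hA i _) (hY _), Finset.sum_add_distrib]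
  rfl

theorem df_dot (hY : Df Y x) (hZ : Df Z x) : DifferentiableAt ℝ (fun y => ev Y y ⬝ᵥ ev Z y) x :=
  DifferentiableAt.fun_sum (u := Finset.univ) fun j _ => (hY j).fun_mul (hZ j)

theorem pd_dot (hY : Df Y x) (hZ : Df Z x) (k : Fin n) : pd k (fun y => ev Y y ⬝ᵥ ev Z y) x =
    ev (pV k Y) x ⬝ᵥ ev Z x + ev Y x ⬝ᵥ ev (pV k Z) x := by
  refine (pd_sum Finset.univ (F := fun j y => Y j y * Z j y)
    (fun j _ => (hY j).fun_mul (hZ j)) k).trans ?_
  simp only [pd_mul (hY _) (hZ _), Finset.sum_add_distrib]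
  rfl

theorem Sm.df (hT : Sm T) (x : E n) (i j : Fin n) : DifferentiableAt ℝ (fun y => mat T y i j) x :=
  (hT i j).diff x

theorem df_lo (hT : Sm T) (hY : Df Y x) : Df (lo T Y) x := df_mul (hT.df x) hY
theorem df_hi (hg : Met g) (hY : Df Y x) : Df (hi g Y) x :=
  df_mul (A := fun y => (mat g y)⁻¹) (fun i j => (hg.sm_up i j).diff x) hY
theorem df_bl (hT : Sm T) (hY : Df Y x) (hZ : Df Z x) : DifferentiableAt ℝ (bl T Y Z) x :=
  df_dot hY (df_lo hT hZ)
theorem df_nab (hg : Met g) (hY : Df Y x) (hZ : C2 Z x) : Df (nab g Y Z) x :=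
  df_mul (diff_cd hg hZ) hY

theorem pd_bl (g : Field n) (hT : Sm T) (hY : Df Y x) (hZ : Df Z x) (k : Fin n) :
    pd k (bl T Y Z) x = ev Y x ⬝ᵥ cM g T k x *ᵥ ev Z x +
      (fun i => Dm g Y x i k) ⬝ᵥ mat T x *ᵥ ev Z x + ev Y x ⬝ᵥ mat T x *ᵥ fun i => Dm g Z x i k := by
  refine (pd_dot hY (df_lo hT hZ) k).trans ?_
  rw [show ev (pV k (lo T Z)) x = _ from pV_mul (hT.df x) hZ k, cM_eq, Dm_col, Dm_col, ev_lo]
  simp only [sub_mulVec, add_mulVec, mulVec_add, dotProduct_add, dotProduct_sub, add_dotProduct,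
    ← mulVec_mulVec, dotProduct_mulVec (ev Y x) (gM g k x)ᵀ, vecMul_transpose]
  ring

theorem D_bl (g : Field n) (hT : Sm T) (hY : Df Y x) (hZ : Df Z x) (W : Vf n) :
    D W (bl T Y Z) x = ev Y x ⬝ᵥ cX g T (ev W x) x *ᵥ ev Z x +
      (Dm g Y x *ᵥ ev W x) ⬝ᵥ mat T x *ᵥ ev Z x + ev Y x ⬝ᵥ mat T x *ᵥ Dm g Z x *ᵥ ev W x := by
  rw [mul_col (Dm g Y x), mul_col (Dm g Z x), cX, D, dotProduct]
  simp only [dd, pd_bl g hT hY hZ, sum_mulVec, mulVec_sum, dotProduct_sum, sum_dotProduct,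
    smul_mulVec, mulVec_smul, dotProduct_smul, smul_dotProduct, smul_eq_mul, mul_add,
    Finset.sum_add_distrib]

theorem inv_sy (hg : Met g) (x : E n) : ((mat g x)⁻¹)ᵀ = (mat g x)⁻¹ :=
  Matrix.ext fun i j => hg.up_sy j i x
theorem mat_sy (hg : Met g) (x : E n) : (mat g x)ᵀ = mat g x := Matrix.ext fun i j => hg.sy x j i
theorem inv_mul (hg : Met g) (x : E n) : (mat g x)⁻¹ * mat g x = 1 :=
  nonsing_inv_mul _ (isUnit_iff_ne_zero.2 (hg.pos x).det_pos.ne')
theorem mul_inv (hg : Met g) (x : E n) : mat g x * (mat g x)⁻¹ = 1 :=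
  mul_nonsing_inv _ (isUnit_iff_ne_zero.2 (hg.pos x).det_pos.ne')

theorem pM_inv (hg : Met g) (k : Fin n) (x : E n) : pM (fun y => (mat g y)⁻¹) k x =
    -(gM g k x * (mat g x)⁻¹) - (mat g x)⁻¹ * (gM g k x)ᵀ := by
  ext i j
  refine Eq.trans (b := pd k (up g i j) x) rfl ((hg.pd_up k i j x).trans ?_)
  simp only [gM, up, of_apply, Matrix.sub_apply, Matrix.neg_apply, mul_apply, transpose_apply,
    mul_comm (chr g j k _ x)]

theorem cM_g (hg : Met g) (k : Fin n) (x : E n) : cM g g k x = 0 := by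
  ext i j
  simp only [cM, cT, of_apply, hg.pd_g, Finset.sum_add_distrib, Matrix.zero_apply, mul_comm (chr g _ k _ x),
    hg.sy x _ j, sub_self]

theorem tr_eq (hg : Met g) (T : Field n) (x : E n) : tr g T x = trace ((mat g x)⁻¹ * mat T x) := by
  simp only [tr, trace, diag, mul_apply]
  rw [Finset.sum_comm]
  exact Finset.sum_congr rfl fun i _ => Finset.sum_congr rfl fun j _ => by
    rw [hg.up_sy j i]; rfl

theorem sm_tr (hg : Met g) (hT : Sm T) : Smooth (tr g T) :=
  ContDiff.sum fun i _ => ContDiff.sum fun j _ => ContDiff.mul (hg.sm_up i j) (hT i j)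

theorem pd_tr (hg : Met g) (hT : Sm T) (k : Fin n) (x : E n) :
    pd k (tr g T) x = trace ((mat g x)⁻¹ * cM g T k x) := by
  have e : pd k (tr g T) x = trace (pM (fun y => (mat g y)⁻¹) k x * mat T x) +
      trace ((mat g x)⁻¹ * pM (mat T) k x) := by
    rw [funext (tr_eq hg T)]
    refine (pd_sum Finset.univ (F := fun i y => ∑ j, up g i j y * T y j i) (fun i _ =>
      DifferentiableAt.fun_sum fun j _ => ((hg.sm_up i j).diff x).fun_mul ((hT j i).diff x)) k).trans ?_
    rw [trace, trace, ← Finset.sum_add_distrib]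
    refine Finset.sum_congr rfl fun i _ => (pd_sum Finset.univ (F := fun j y => up g i j y * T y j i)
      (fun j _ => ((hg.sm_up i j).diff x).fun_mul ((hT j i).diff x)) k).trans ?_
    simp only [pd_mul ((hg.sm_up i _).diff x) ((hT _ i).diff x), Finset.sum_add_distrib, diag,
      mul_apply]
    rfl
  rw [e, pM_inv hg, cM_eq]
  simp only [Matrix.mul_sub, Matrix.sub_mul, Matrix.mul_add, Matrix.neg_mul, trace_sub, trace_add,
    trace_neg, Matrix.mul_assoc, trace_mul_comm (gM g k x)]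
  ring

theorem D_tr (hg : Met g) (hT : Sm T) (W : Vf n) (x : E n) :
    D W (tr g T) x = trace ((mat g x)⁻¹ * cX g T (ev W x) x) := by
  simp only [D, dotProduct, dd, pd_tr hg hT, cX, Matrix.mul_sum, Matrix.mul_smul, trace_sum,
    trace_smul, smul_eq_mul]

theorem dv_eq (hg : Met g) (hY : Df Y x) : dv g Y x = trace (Dm g Y x) := dv_eq_cd hg hY

theorem col_sh (hg : Met g) (hT : Sm T) (hY : Df Y x) (k : Fin n) :
    (fun i => Dm g (hi g (lo T Y)) x i k) =
      (mat g x)⁻¹ *ᵥ (cM g T k x *ᵥ ev Y x + mat T x *ᵥ fun i => Dm g Y x i k) := by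
  rw [Dm_col, Dm_col, show ev (pV k (hi g (lo T Y))) x = _ from
    pV_mul (A := fun y => (mat g y)⁻¹) (fun i j => (hg.sm_up i j).diff x) (df_lo hT hY) k,
    show ev (pV k (lo T Y)) x = _ from pV_mul (hT.df x) hY k, pM_inv hg, cM_eq, ev_hi, ev_lo]
  simp only [sub_mulVec, add_mulVec, neg_mulVec, mulVec_add, mulVec_sub, ← mulVec_mulVec]
  abel

theorem dv_sh (hg : Met g) (hT : Sm T) (hY : Df Y x) : dv g (hi g (lo T Y)) x =
    ev (dvT g T) x ⬝ᵥ ev Y x + trace ((mat g x)⁻¹ * (mat T x * Dm g Y x)) := by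
  rw [dv_eq hg (df_hi hg (df_lo hT hY))]
  have := fun k => congrFun (col_sh hg hT hY k) k
  simp only [trace, diag, this, mulVec_add, Pi.add_apply, Finset.sum_add_distrib]
  congr 1
  simp only [mulVec, dotProduct, ev, dvT, Finset.sum_mul, Finset.mul_sum]
  rw [P366P.rot3, Finset.sum_comm]
  exact Finset.sum_congr rfl fun j _ => Finset.sum_congr rfl fun i _ =>
    Finset.sum_congr rfl fun k _ => by rw [hg.up_sy i k, mul_assoc]; rfl

theorem mom_eq (hg : Met g) (hT : Sm T) (j : Fin n) (x : E n) :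
    mom g T j x = dvT g T j x - pd j (tr g T) x := by
  have e : ∀ k i, cT g (momT g T) k i j x = cT g T k i j x - g x i j * pd k (tr g T) x := by
    intro k i
    have h0 : cT g g k i j x = 0 := congrFun (congrFun (cM_g hg k x) i) j
    have d := (sm_tr hg hT).diff x
    simp only [cT, momT, pd_sub ((hT i j).diff x) (d.fun_mul ((hg.sm i j).diff x)),
      pd_mul d ((hg.sm i j).diff x), mul_sub, Finset.sum_add_distrib, Finset.sum_sub_distrib,
      mul_left_comm _ (tr g T x), ← Finset.mul_sum] at h0 ⊢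
    linear_combination -tr g T x * h0
  have e2 : mom g T j x = ∑ i, ∑ k, up g i k x * cT g (momT g T) k i j x := rfl
  rw [e2, ← hg.g_up_mul x j fun k => pd k (tr g T) x]
  simp only [e, mul_sub, Finset.sum_sub_distrib, Finset.mul_sum, hg.sy x j, mul_left_comm (up g _ _ x)]
  rfl

theorem Dm_smul (g : Field n) (hf : DifferentiableAt ℝ f x) (hY : Df Y x) :
    Dm g (fun i y => f y * Y i y) x = f x • Dm g Y x + vecMulVec (ev Y x) (dd f x) := by
  ext i j
  simp only [Dm, cd, of_apply, Matrix.add_apply, Matrix.smul_apply, vecMulVec_apply, ev, dd, pd_mul hf (hY i),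
    smul_eq_mul, mul_add, Finset.mul_sum, mul_left_comm (f x)]
  ring

theorem Dm_sub (g : Field n) (hY : Df Y x) (hZ : Df Z x) :
    Dm g (fun i y => Y i y - Z i y) x = Dm g Y x - Dm g Z x := by
  ext i j
  simp only [Dm, cd, of_apply, Matrix.sub_apply, pd_sub (hY i) (hZ i), mul_sub, Finset.sum_sub_distrib]
  ring

theorem Dm_add (g : Field n) (hY : Df Y x) (hZ : Df Z x) :
    Dm g (fun i y => Y i y + Z i y) x = Dm g Y x + Dm g Z x := by
  ext i j
  simp only [Dm, cd, of_apply, Matrix.add_apply, pd_add (hY i) (hZ i), mul_add, Finset.sum_add_distrib]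
  ring

theorem Dm_gr (hg : Met g) (hf : ContDiffAt ℝ 2 f x) :
    Dm g (gr g f) x = (mat g x)⁻¹ * mat (hess g f) x := by
  ext i k
  simp only [Dm, cd, of_apply, hg.pd_gr hf, sub_add_cancel, mul_apply, hg.hess_sy hf k]
  rfl

theorem dd_D (g : Field n) (hY : Df Y x) (hf : ContDiffAt ℝ 2 f x) :
    dd (D Y f) x = mat (hess g f) x *ᵥ ev Y x + dd f x ᵥ* Dm g Y x := by
  ext j
  have e : D Y f = fun y => ∑ i, pd i f y * Y i y := funext fun y => dotProduct_comm _ _
  rw [dd, e, P366P.pd_pair (g := g) hY hf]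
  rfl

theorem df_D (hY : Df Y x) (hf : ContDiffAt ℝ 2 f x) : DifferentiableAt ℝ (D Y f) x :=
  df_dot hY (Z := fun j => pd j f) (diffAt_pd hf)

theorem rc_sy (hg : Met g) (x : E n) : (mat (rc g) x)ᵀ = mat (rc g) x := by
  ext l i
  have e : ∀ i l, ∑ j, pd i (chr g j j l) x = pd i (pd l fun y => Real.log (dens g y)) x := by
    intro i l
    rw [← pd_sum Finset.univ fun j _ => (hg.sm_chr j j l).diff x]
    refine congrArg (pd i · x) (funext fun y => ?_)
    rw [pd_log (hg.sm_dens.diff y) (hg.dens_pos y).ne', ← hg.sum_chr]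
    simp only [hg.chr_sy _ l]
  have s : ∀ k i j, chr g k i j = chr g k j i := fun k i j => funext (hg.chr_sy k i j)
  show rc g x i l = rc g x l i
  simp only [rc, Finset.sum_add_distrib, Finset.sum_sub_distrib, e, s _ i l]
  rw [pd_comm ((hg.sm_dens.c2 x).log (hg.dens_pos x).ne') i l,
    Finset.sum_comm (f := fun j k => chr g k j i x * chr g j k l x)]
  simp only [mul_comm (chr g _ _ i x)]

theorem com_alg {ι : Type} [Fintype ι] {G : ι → ι → ι → ℝ} (hG : ∀ k i j, G k i j = G k j i)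
    (dG : ι → ι → ι → ι → ℝ) (Z : ι → ℝ) (dZ : ι → ι → ℝ) {ddZ : ι → ι → ι → ℝ}
    (hZ : ∀ a b i, ddZ a b i = ddZ b a i) (j : ι) :
    ∑ i, (ddZ i j i + ∑ k, (dG i i j k * Z k + G i j k * dZ i k) +
      ∑ k, G i i k * (dZ j k + ∑ l, G k j l * Z l)) =
    ∑ i, ∑ k, G k i j * (dZ k i + ∑ l, G i k l * Z l) +
      ∑ l, (∑ i, (dG i i j l - dG j i i l + ∑ k, (G i i k * G k j l - G k i j * G i k l))) * Z l +
      ∑ i, (ddZ j i i + ∑ k, (dG j i i k * Z k + G i i k * dZ j k)) := by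
  have e1 : ∑ i, ∑ k, G k i j * dZ k i = ∑ i, ∑ k, G i j k * dZ i k := by
    rw [Finset.sum_comm]
    simp only [hG _ j]
  have e2 : ∀ F : ι → ι → ι → ℝ, ∑ l, ∑ i, ∑ k, F i k l = ∑ i, ∑ k, ∑ l, F i k l := fun F =>
    P366P.rot3 fun l i k => F i k l
  simp only [mul_add, add_mul, sub_mul, Finset.mul_sum, Finset.sum_mul, Finset.sum_add_distrib,
    Finset.sum_sub_distrib, mul_assoc, hZ _ j]
  rw [e1, e2 fun i k l => G i i k * (G k j l * Z l), e2 fun i k l => G k i j * (G i k l * Z l),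
    Finset.sum_comm (f := fun l i => dG i i j l * Z l),
    Finset.sum_comm (f := fun l i => dG j i i l * Z l)]
  ring

/-- **the identity of Ricci for two fields** -/
theorem ricci2 (hg : Met g) (hY : Df Y x) (hZ : C2 Z x) : dv g (nab g Y Z) x =
    trace (Dm g Y x * Dm g Z x) + ev Y x ⬝ᵥ mat (rc g) x *ᵥ ev Z x + D Y (dv g Z) x := by
  have h2 : ∀ j, pd j (dv g Z) x = ∑ i, pd j (cd g Z i i) x := fun j => by
    rw [pd_congr (dv_ev hg hZ), pd_sum Finset.univ fun i _ => diff_cd hg hZ i i]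
  have c : ∀ j, ∑ i, (pd i (cd g Z i j) x + ∑ k, chr g i i k x * cd g Z k j x) =
      ∑ i, ∑ k, chr g k i j x * cd g Z i k x + ∑ l, rc g x j l * Z l x + pd j (dv g Z) x := by
    intro j
    simp only [h2, pd_cd hg hZ]
    exact com_alg (G := fun k i j => chr g k i j x) (fun k i j => hg.chr_sy k i j x)
      (fun a k i j => pd a (chr g k i j) x) (fun i => Z i x) (fun a i => pd a (Z i) x)
      (ddZ := fun a b i => pd a (pd b (Z i)) x) (fun a b i => pd_comm (hZ i) a b) j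
  have h1 : ∀ i, pd i (nab g Y Z i) x =
      ∑ j, (pd i (cd g Z i j) x * Y j x + cd g Z i j x * pd i (Y j) x) := fun i =>
    (congrFun (pV_mul (A := Dm g Z) (diff_cd hg hZ) hY i) i).trans (by
      rw [Finset.sum_add_distrib]; rfl)
  have e : ∑ j, Y j x * ∑ i, (pd i (cd g Z i j) x + ∑ k, chr g i i k x * cd g Z k j x) = _ :=
    Finset.sum_congr rfl fun j _ => congrArg _ (c j)
  rw [hg.dv_chr (df_nab hg hY hZ)]
  simp only [h1, nab, Dm, D, dd, ev, mat, trace, diag, mul_apply, mulVec, dotProduct, of_apply,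
    show ∀ i j, cd g Y i j x = pd j (Y i) x + ∑ k, chr g i j k x * Y k x from fun _ _ => rfl,
    mul_add, add_mul, Finset.mul_sum, Finset.sum_mul, Finset.sum_add_distrib] at e ⊢
  rw [Finset.sum_comm (f := fun i j => pd i (cd g Z i j) x * Y j x),
    Finset.sum_comm (f := fun i j => cd g Z i j x * pd i (Y j) x),
    ← P366P.rot3 fun j i k => chr g i i k x * (cd g Z k j x * Y j x),
    Finset.sum_comm (f := fun k i => ∑ j, chr g k i j x * Y j x * cd g Z i k x),
    ← P366P.rot3 fun j i k => chr g k i j x * Y j x * cd g Z i k x]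
  simp only [mul_comm, mul_left_comm, mul_assoc] at e ⊢
  linarith

end Vale.Agent.P366XR
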