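import Vale.Agent.P366XR.Vis
import Vale.Agent.P366F.Defs
import Vale.Agent.P366M.Inv2
import Vale.Agent.P366M.Int

/-!
# P366XR: the complement of `U` is trapped in the sense of barriers
-/

set_option linter.all false

open Filter Topology Matrix Set
open scoped ContDiff
open Vale.Agent.P366.Stmt Vale.Agent.P366Z
open Vale.Agent.P366M (ch pt loc rep ch_mem ev_pt loc_pt thetaPlus_pt)

noncomputable section

namespace Vale.Agent.P366XR

theorem Qc_eq {n : ℕ} {g : Field n} (hg : Met g) (K : Field n) (Y : Vf n) (φ : E n → ℝ) (y : E n)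
    (ν : Fin n → ℝ) : P366F.Qc g K Y φ y ν = vi g K Y φ y ν := by
  rw [vi, dot_sy hg, ← quad_mat K, P366F.Qc]
  congr 2
  simp only [dotProduct, mulVec, Dm, mat, of_apply, Finset.mul_sum, Finset.sum_mul]
  refine Finset.sum_congr rfl fun i _ => ?_
  rw [Finset.sum_comm]
  exact Finset.sum_congr rfl fun j _ => Finset.sum_congr rfl fun k _ => by ring

/-- **V1** -/
theorem v1 : P366F.V1 := by
  intro n M _ Z _ hZ hW f x hf hx f0 df h
  have sF := Z.D.dom.1
  have hg := Z.D.met.loc' x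
  rcases lt_trichotomy (Z.D.F x) 0 with k | k | k
  · obtain ⟨i, hi⟩ := df
    refine (hi (P366M.pd_of_isLocalMax ?_ i)).elim
    filter_upwards [h, sF.continuous.continuousAt.eventually (gt_mem_nhds k)] with y h1 h2
    exact (h1 fun e => (hZ.sub y e).not_gt h2).trans f0.ge
  · rw [← hZ.mar x k, ← thetaPlus_pt, ← thetaPlus_pt]
    exact cmp (hg.pos _) (Smooth.c2 (sF _ (ch_mem x)) _) (Smooth.c2 (hf _ (ch_mem x)) _)
      ((loc_pt _ x).trans k) ((loc_pt _ x).trans f0) (Z.D.dom.2.1 x k) df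
      (ev_pt.1 (h.mono fun y hy e => hy fun e' => (hZ.sub y e').not_ge e))
  by_contra hθ
  rw [← thetaPlus_pt, not_le] at hθ
  obtain ⟨Y, φ, hY, hφ, p, q⟩ := exists_test hg (Z.D.smK _ (ch_mem x)) (hf _ (ch_mem x))
    ((loc_pt _ x).trans f0) df hθ
    (ev_pt.1 (h.and (sF.continuous.continuousAt.eventually (lt_mem_nhds k))))
  obtain ⟨ν, n1, n2⟩ := hW.v1 _ (ch_mem x) Y φ (tsupport φ ∪ ⋃ i, tsupport (Y i)) (pt x)
    (hφ.cpt.isCompact.union (isCompact_iUnion fun i => (hY i).cpt))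
    (union_subset (fun y hy => (hφ.sub hy).2) (iUnion_subset fun i y hy => ((hY i).sub hy).2))
    (fun i => (hY i).sm) hφ.sm (fun y hy => ⟨image_eq_zero_of_notMem_tsupport fun e => hy (.inl e),
      fun i => image_eq_zero_of_notMem_tsupport fun e => hy (.inr (mem_iUnion.2 ⟨i, e⟩))⟩)
    (by simpa using k) (by simpa using hx) fun y ν hy n1 => by
      rw [Qc_eq hg]
      exact (q y ν fun e => ⟨(quad_mat _ _ _).symm.trans n1, e.1 hy⟩).1
  rw [Qc_eq hg] at n2
  exact ((q _ ν fun _ => ⟨(quad_mat _ _ _).symm.trans n1, ((loc_pt _ x).trans f0).le⟩).2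
    p.ne').not_ge n2

end Vale.Agent.P366XR
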