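import Vale.Agent.P366XR.Act

/-!
# P366XR: the source is stationary
-/

set_option linter.all false

open MeasureTheory Filter Topology Matrix Set
open scoped ContDiff
open Vale.Agent.P366 Vale.Agent.P366M Vale.Agent.P366K
open Vale.Agent.P366.Stmt (E Field)
open Vale.Agent.P366Y.C (Sy)
open Vale.Agent.P366EN (Du)

noncomputable section

namespace Vale.Agent.P366XR.L

variable {n : ℕ} {M : Type} [Mfe n M]

theorem ae_Us (D : Exterior n M) {W : Type} [MeasurableSpace W] {π : W → M} (hπ : Measurable π)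
    (β : Measure W) : ∀ᵐ w ∂β, π w ∉ Us D π β := by
  have h : β.map π (Us D π β) = 0 := measure_null_of_locally_null _ fun x ⟨_, O, o1, o2⟩ =>
    ⟨interior O, mem_nhdsWithin_of_mem_nhds (interior_mem_nhds.2 o1), by
      rw [Measure.map_apply hπ isOpen_interior.measurableSet]
      exact measure_mono_null (preimage_mono interior_subset) o2⟩
  exact measure_eq_zero_iff_ae_notMem.1
    (le_zero_iff.1 ((Measure.le_map_apply hπ.aemeasurable _).trans h.le))

theorem du {D : Exterior n M} {ε : ℝ} {W : Type} [MeasurableSpace W] {π : W → M}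
    {ν : W → Fin n → ℝ} {α : Measure W} {N : M → ℝ} {X : Fin n → M → ℝ} (hd : D.DEC)
    (h : Rp D ε π ν α N X) {e : Ch n M} (he : e ∈ At M) {y : E n} (F0 : 0 ≤ D.F (e.symm y)) :
    Du (rep e D.g) (rep e D.K) (loc e N) (repV e X) y := by
  have dK := D.smK.dt (e.symm y)
  refine ⟨?_, h.N0 _ F0, ?_, ?_⟩
  · rw [covNorm_mom_rep D.met he dK, mu_rep D.met he]
    exact hd _ F0
  · rw [P366RB.sq, quad_rep he]
    exact h.le _ F0
  · simp only [mom_rep D.met he dK, mu_rep D.met he, mul_comm (repV e X _ y), dot_rep he]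
    simpa only [mul_comm (X _ _), loc] using h.act _ F0

/-- **V1W** -/
theorem v1w_of (hR : REP) (hD : C.GD) (hT : C.GT) : P366F.V1W := by
  intro n M _ A hA N X hP hW e he Y φ B x b1 b2 sY sφ h0 x0 x1 hQ
  have hM := hA.mm
  have hg := A.D.met.rep he
  have hK : Sy (rep e A.D.K) := ⟨A.D.smK e he, rep_sy A.D.syK e⟩
  have hV : IsOpen {y | 0 < A.D.F (e.symm y)} :=
    isOpen_lt continuous_const (A.D.dom.1.cont.comp (cont_symm he))
  have s : {y | 0 < A.D.F (e.symm y)} ⊆ {y | 0 ≤ A.D.F (e.symm y)} := fun y hy =>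
    le_of_lt (a := (0 : ℝ)) hy
  have hB := cpt_image he b1
  have out : ∀ y ∉ B, ∀ᶠ z in 𝓝 y, z ∉ B := fun y hy => b1.isClosed.isOpen_compl.mem_nhds hy
  have z1 : ∀ (T : Field n), ∀ y ∉ B, C.lie T Y y = 0 := fun T y hy => by
    have : ∀ i a, Stmt.pd i (Y a) y = 0 := fun i a => (P366Z.pd_congr (h := fun _ => 0)
      ((out y hy).mono fun z hz => (h0 z hz).2 a) i).trans (P366Z.pd_const 0 i y)
    funext i j
    simp [C.lie, this, (h0 y hy).2]
  have z2 : ∀ y ∉ B, (fun i j => 2 * φ y * rep e A.D.K y i j) = 0 := fun y hy => by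
    funext i j
    simp [(h0 y hy).1]
  have z3 : ∀ y ∉ B, C.kt (rep e A.D.g) (rep e A.D.K) φ y = 0 := fun y hy => by
    have e1 : φ =ᶠ[𝓝 y] fun _ => 0 := (out y hy).mono fun z hz => (h0 z hz).1
    have e2 : ∀ j, Stmt.pd j φ =ᶠ[𝓝 y] fun _ => 0 := fun j =>
      (P366Z.pd_congr_ev e1 j).mono fun z hz => hz.trans (P366Z.pd_const 0 j z)
    funext i j
    simp [C.kt, Stmt.hess, (h0 y hy).1, fun j => P366Z.pd_congr (e2 j), P366Z.pd_const,
      fun j => (e2 j).eq_of_nhds]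
  have y1 := P366RY.sy_lie ⟨hg.sm, hg.sy⟩ sY
  have y2 := P366RY.sy_lie hK sY
  have y3 : Sy fun y i j => 2 * φ y * rep e A.D.K y i j :=
    ⟨fun i j => (contDiff_const.mul sφ).mul (hK.sm i j), fun y i j => by rw [hK.sy y i]⟩
  have I1 : ∫ w, ar A.D.g (zt e (C.lie (rep e A.D.g) Y)) (A.π w) (A.ν w) ∂A.β = 0 := by
    have s1 := sym_zt he b1 (z1 _) y1
    have s2 := sym_zt he b1 (z1 _) y2
    rw [← id_cpt hM s1 s2 hB (fun x ⟨y, hy, e⟩ => e ▸ b2 hy) (zt_zero (z1 _)) (zt_zero (z1 _)),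
      integral_eq_zero_of_ae (μ := A.α) (hM.act.mono fun w hw => ?_), zero_add]
    refine mul_eq_zero_of_right _ ?_
    by_cases k : A.π w ∈ e.symm '' B
    · obtain ⟨y, hy, e1⟩ := k
      have u := hM.unit w
      rw [P366MM.sq, ← e1, quad_vc he] at u
      rw [← e1, en_vc A.D.met A.D.smK he] at hw
      rw [← e1, lin_vc hR A.D.met ⟨A.D.smK, A.D.syK⟩ s1 s2 he, rep_zt he, rep_zt he]
      exact lin_gd hD hg hK sY (Eventually.mono (hV.mem_nhds (b2 hy)) fun z hz =>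
        (du hA.eqc.dec hP he (s hz)).dec) u hw
    · exact lin_zero (ev_zero hB (zt_zero (z1 _)) k) (ev_zero hB (zt_zero (z1 _)) k) _
  have I2 := id_chart hR hM hP he y3 (sy_kt hg hK sφ) b1 b2 z2 z3
  rw [int_gt hT (by linarith [hA.eqc.n3]) hg hK sφ hV b1 b2 (fun y hy => (h0 y hy).1)
    ((hP.lip e he).1.mono s) (fun i => ((hP.lip e he).2 i).mono s)
    (fun y hy => du hA.eqc.dec hP he (s hy)) (hW e he), zero_eq_neg] at I2
  have J1 := int_ar hM he y1 b1 (z1 _)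
  have J2 := int_ar hM he y3 b1 z2
  have ec : ∀ w y, e.symm y = A.π w → vc e y (A.ν w) ⬝ᵥ Stmt.mat (rep e A.D.g) y *ᵥ
      vc e y (A.ν w) = 1 ∧ ar A.D.g (zt e (C.lie (rep e A.D.g) Y)) (A.π w) (A.ν w) +
        ar A.D.g (zt e fun y i j => 2 * φ y * rep e A.D.K y i j) (A.π w) (A.ν w) =
        vi (rep e A.D.g) (rep e A.D.K) Y φ y (vc e y (A.ν w)) := fun w y e1 => by
    have u := hM.unit w
    rw [P366MM.sq, ← e1, quad_vc he, quad_mat] at u
    rw [← e1, ar_vc he, ar_vc he, rep_zt he, rep_zt he]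
    exact ⟨u, vi_ar hg _ Y φ y _⟩
  have Z := (integral_eq_zero_iff_of_nonneg_ae ((ae_Us A.D hM.mπ A.β).mono fun w hw => ?_)
    (J1.add J2)).1 (by rw [integral_add' J1 J2, I1, I2, add_zero])
  · by_contra k
    have p := ev_vi (x := x) hg hK.sm sY sφ fun ν hν => not_le.1 fun r =>
      k ⟨ν, (quad_mat _ _ _).trans hν, (Qc_eq hg _ Y φ x ν).trans_le r⟩
    refine x1 ⟨x0, _, (openEmb_symm he).image_mem_nhds.2 p, measure_mono_null ?_ Z⟩
    rintro w ⟨y, hy, e1⟩ r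
    exact (hy _ (ec w y e1).1).ne' ((ec w y e1).2.symm.trans r)
  · by_cases k : A.π w ∈ e.symm '' B
    · obtain ⟨y, -, e1⟩ := k
      refine le_trans ?_ (ec w y e1).2.ge
      rw [← Qc_eq hg]
      exact hQ y _ (e1 ▸ hw) ((quad_mat _ _ _).trans (ec w y e1).1)
    · simp [ar_zero (zt_zero (z1 _) _ k), ar_zero (zt_zero z2 _ k)]

end Vale.Agent.P366XR.L
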