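import Vale.Agent.P366XR.Wk
import Vale.Agent.P366XR.V1
import Vale.Agent.P366EN.Vac
import Vale.Agent.P366RY.Gd
import Vale.Agent.P366NW.Gt1

/-!
# P366XR: the gauge variations at the active points
-/

set_option linter.all false

open MeasureTheory Filter Topology Matrix Set
open scoped ContDiff
open Vale.Agent.P366.Stmt Vale.Agent.P366K.C
open Vale.Agent.P366Z hiding Wt dd
open Vale.Agent.P366Y.C (Sy rc)
open Vale.Agent.P366P (cd)
open Vale.Agent.P366EN (Du)

noncomputable section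

namespace Vale.Agent.P366XR

variable {n : ℕ} {g K : Field n} {N N' f φ : E n → ℝ} {X X' Y : Vf n} {V A : Set (E n)} {x y : E n}
  {e : Fin n → ℝ}

theorem hd_line (hf : Smooth f) (y : E n) (v : Fin n → ℝ) :
    HasDerivAt (fun t => f (par y v 0 t)) (∑ a, v a * pd a f y) 0 := (par2 (hf.c2 y) v 0).1

theorem sm_mu (hg : Met g) (hK : Sm K) : Smooth (mu g K) :=
  ((ContDiff.add hg.sm_scal (ContDiff.pow (sm_tr hg hK) 2)).sub (sm_pr hg hK hK)).div_const 2

theorem dec_le (hg : Met g) (h : covNorm g (mom g K) y ≤ mu g K y) (w : Fin n → ℝ) :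
    0 ≤ mu g K y * ((1 + ∑ i, ∑ j, g y i j * w i * w j) / 2) + ∑ j, mom g K j y * w j := by
  have c := hg.up_cs y (fun i => P366RB.lo g (fun i _ => w i) i y) fun j => mom g K j y
  rw [P366EN.up_lo hg, P366EN.up_lo hg, P366EN.sq_lo g (fun i _ => w i), P366RB.sq] at c
  obtain ⟨m0, m1⟩ := Real.sqrt_le_iff.1 h
  have s := hg.g_nonneg y w
  simp only [mul_comm (w _)] at c
  generalize ∑ i, ∑ j, g y i j * w i * w j = s' at c s ⊢
  have := neg_le_of_abs_le (abs_le_of_sq_le_sq (b := mu g K y * ((1 + s') / 2))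
    (c.trans ((mul_le_mul_of_nonneg_left m1 s).trans
      (by nlinarith [mul_nonneg (sq_nonneg (mu g K y)) (sq_nonneg (1 - s'))]))) (by positivity))
  linarith

theorem act0 (hg : Met g) (hK : Sy K) (hd : ∀ᶠ z in 𝓝 y, covNorm g (mom g K) z ≤ mu g K z)
    (he : ∑ i, ∑ j, g y i j * e i * e j = 1) (h0 : mu g K y + ∑ j, mom g K j y * e j = 0)
    (v e' : Fin n → ℝ) : ∑ a, v a * pd a (mu g K) y + mu g K y * ((∑ i, ∑ j,
      (((∑ a, v a * pd a (fun z => g z i j) y) * e i + g y i j * e' i) * e j +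
        g y i j * e i * e' j)) / 2) +
      ∑ j, ((∑ a, v a * pd a (mom g K j) y) * e j + mom g K j y * e' j) = 0 := by
  have w : ∀ i, HasDerivAt (fun t : ℝ => e i + t * e' i) (e' i) 0 := fun i => by
    simpa using ((hasDerivAt_id' (0 : ℝ)).mul_const (e' i)).const_add (e i)
  have d := ((hd_line (sm_mu hg hK.sm) y v).fun_mul (((HasDerivAt.fun_sum (u := Finset.univ)
    fun i _ => HasDerivAt.fun_sum (u := Finset.univ) fun j _ =>
      ((hd_line (hg.sm i j) y v).fun_mul (w i)).fun_mul (w j)).const_add 1).div_const 2)).fun_add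
    (HasDerivAt.fun_sum (u := Finset.univ) fun j _ =>
      (hd_line (sm_mom hg hK.sm j) y v).fun_mul (w j))
  have z := IsLocalMin.hasDerivAt_eq_zero (((tend_par y v 0).eventually hd).mono fun t ht => by
    refine le_trans (le_of_eq ?_) (dec_le hg ht fun i => e i + t * e' i)
    simp only [par_zero, zero_mul, add_zero, he]
    linarith) d
  simp only [par_zero, zero_mul, add_zero, he] at z
  linarith

theorem lin_gd (hG : GD) (hg : Met g) (hK : Sy K) (hY : ∀ i, Smooth (Y i))
    (hd : ∀ᶠ z in 𝓝 y, covNorm g (mom g K) z ≤ mu g K z)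
    (he : ∑ i, ∑ j, g y i j * e i * e j = 1) (h0 : mu g K y + ∑ j, mom g K j y * e j = 0) :
    Lmu g K (lie g Y) (lie K Y) y + ∑ j, Lmo g K (lie g Y) (lie K Y) j y * e j = 0 := by
  obtain ⟨h1, h2⟩ := hG n g K Y y hg hK hY
  have a1 : ∀ j, mom g K j y = -mu g K y * ∑ k, g y j k * e k := fun j => by
    have := act0 hg hK hd he h0 0 (Pi.single j 1)
    simp only [Pi.zero_apply, zero_mul, Finset.sum_const_zero, zero_add, Pi.single_apply, mul_ite,
      ite_mul, mul_one, mul_zero, Finset.sum_add_distrib, Finset.sum_ite_eq', Finset.mem_univ,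
      if_true, Finset.sum_comm (f := fun i k => if i = j then g y i k * e k else 0),
      hg.sy y _ j] at this
    linarith
  have a2 : ∀ a, rs g (mom g K) a y = -mu g K y * e a := fun a => by
    simp only [rs, a1, mul_left_comm _ (-mu g K y), ← Finset.mul_sum, hg.up_g_mul]
  have a3 := act0 hg hK hd he h0 (fun a => Y a y) fun a => ∑ b, pd b (Y a) y * e b
  have t1 : ∑ i, ∑ j, (((∑ a, Y a y * pd a (fun z => g z i j) y) * e i +
      g y i j * ∑ b, pd b (Y i) y * e b) * e j + g y i j * e i * ∑ b, pd b (Y j) y * e b) =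
      ∑ j, (∑ a, lie g Y y j a * e a) * e j := by
    simp only [lie, Finset.sum_mul, Finset.mul_sum, add_mul, Finset.sum_add_distrib]
    congr 1
    congr 1
    · exact p3 id id (fun _ => rfl) (fun _ => rfl) fun _ => by simp only [id]; ring
    · exact p3 (fun (i, j, b) => (b, j, i)) (fun (i, j, b) => (b, j, i)) (fun _ => rfl)
        (fun _ => rfl) fun _ => by ring
    · exact p3 (fun (i, j, b) => (i, b, j)) (fun (i, j, b) => (i, b, j)) (fun _ => rfl)
        (fun _ => rfl) fun _ => by ring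
  have t2 : ∑ j, mom g K j y * ∑ b, pd b (Y j) y * e b =
      ∑ j, (∑ a, mom g K a y * pd j (Y a) y) * e j := by
    simp only [Finset.sum_mul, Finset.mul_sum, mul_assoc]
    exact Finset.sum_comm
  rw [t1, Finset.sum_add_distrib, t2] at a3
  simp only [h1, Lmo, h2, a2, mul_left_comm _ (-mu g K y), ← Finset.mul_sum, sub_mul, add_mul,
    Finset.sum_add_distrib, Finset.sum_sub_distrib, div_mul_eq_mul_div, mul_assoc (-mu g K y),
    ← Finset.sum_div]
  linarith

theorem rs_par (hg : Met g) (h : Du g K N X y) (a : Fin n) :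
    N y * rs g (mom g K) a y = -mu g K y * X a y := by
  rw [rs, ← hg.up_g_mul y a fun l => X l y, Finset.mul_sum, Finset.mul_sum]
  exact Finset.sum_congr rfl fun j _ => by
    have := h.par hg j
    rw [P366RB.lo] at this
    linear_combination up g a j y * this

theorem lin_gt (hG : GT) (hn : 2 ≤ n) (hg : Met g) (hK : Sy K) (hφ : Smooth φ) (h : Du g K N X y) :
    N y * Lmu g K (fun y i j => 2 * φ y * K y i j) (kt g K φ) y +
      ∑ j, X j y * Lmo g K (fun y i j => 2 * φ y * K y i j) (kt g K φ) j y =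
      N y * dv g (fun a y => φ y * rs g (mom g K) a y) y -
        φ y * ∑ a, (∑ j, K y a j * X j y) * rs g (mom g K) a y := by
  obtain ⟨h1, h2⟩ := hG n g K φ y hn hg hK hφ
  have t1 : N y * ∑ a, rs g (mom g K) a y * pd a φ y = -mu g K y * ∑ a, X a y * pd a φ y := by
    simp only [Finset.mul_sum, ← mul_assoc, rs_par hg h]
  have t2 : ∑ j, X j y * ∑ a, K y j a * rs g (mom g K) a y =
      ∑ a, (∑ j, K y a j * X j y) * rs g (mom g K) a y := by
    simp only [Finset.sum_mul, Finset.mul_sum]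
    rw [Finset.sum_comm]
    exact Finset.sum_congr rfl fun a _ => Finset.sum_congr rfl fun j _ => by rw [hK.sy y j a]; ring
  have t3 : ∀ j, X j y * Lmo g K (fun y i j => 2 * φ y * K y i j) (kt g K φ) j y =
      mu g K y * (X j y * pd j φ y) - φ y * tr g K y * (X j y * mom g K j y) -
        φ y * (X j y * ∑ a, K y j a * rs g (mom g K) a y) := fun j => by
    simp only [Lmo, h2, mul_assoc (2 * φ y), ← Finset.mul_sum]
    ring
  simp only [t3, Finset.sum_sub_distrib, ← Finset.mul_sum, t2, h1]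
  linear_combination t1 - φ y * tr g K y * h.dust

theorem pJ (hg : Met g) (hK : Sy K) (h : ∀ᶠ z in 𝓝 y, Du g K N X z) (hN : DifferentiableAt ℝ N y)
    (hX : Df X y) (hk : Kid g K N X y) :
    ∑ a, (pd a N y + ∑ j, K y a j * X j y) * rs g (mom g K) a y = 0 := by
  have h0 := h.self_of_nhds
  rcases h0.mu0.eq_or_lt with m | m
  · have : (fun j => mom g K j y) = 0 := by
      by_contra k
      exact (Real.sqrt_pos.2 (hg.up_pos y k)).not_ge (h0.dec.trans m.ge)
    simp [rs, congrFun this]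
  rcases h0.nn.eq_or_lt with m' | m'
  · have : (fun j => X j y) = 0 := by
      by_contra k
      exact (hg.g_pos y k).not_ge (h0.le.trans (by simp [← m']))
    have d : ∀ a, pd a N y = 0 := fun a => by
      rw [pd_eq hN, IsLocalMin.fderiv_eq_zero (h.mono fun z hz => m'.ge.trans hz.nn)]
      rfl
    simp [d, congrFun this]
  have e1 : bl g X X =ᶠ[𝓝 y] fun z => N z * N z := by
    filter_upwards [h, (sm_mu hg hK.sm).cont.continuousAt.eventually (lt_mem_nhds m)] with z a b
    have c : ∑ j, X j z * (N z * mom g K j z + mu g K z * P366RB.lo g X j z) = 0 := by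
      simp [a.par hg]
    simp only [mul_add, Finset.sum_add_distrib, mul_left_comm (X _ z), ← Finset.mul_sum] at c
    refine mul_left_cancel₀ b.ne' ?_
    rw [show bl g X X z = ∑ j, X j z * P366RB.lo g X j z from rfl]
    linear_combination c - N z * a.dust
  have e2 := D_bl g hg.sm hX hX X
  have e3 : D X (bl g X X) y = 2 * N y * ∑ a, pd a N y * X a y := by
    simp only [D, dd, ev, dotProduct, pd_congr e1, pd_mul hN hN, Finset.mul_sum]
    exact Finset.sum_congr rfl fun a _ => by ring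
  have e4 : (mat g y * Dm g X y)ᵀ + mat g y * Dm g X y = (-2 * N y) • mat K y := by
    ext i j
    refine Eq.trans ?_ (hk i j)
    rw [Finset.sum_add_distrib]
    rfl
  have e5 := congrArg (fun A => ev X y ⬝ᵥ A *ᵥ ev X y) e4
  simp only [add_mulVec, dotProduct_add, mulVec_transpose, smul_mulVec, dotProduct_smul,
    dotProduct_comm (ev X y) (_ ᵥ* _), ← dotProduct_mulVec, ← mulVec_mulVec, smul_eq_mul] at e5
  rw [e3, dot_sy hg y (_ *ᵥ _)] at e2
  simp only [cX, cM_g hg, smul_zero, Finset.sum_const_zero, zero_mulVec, dotProduct_zero] at e2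
  have e6 : ∑ a, (pd a N y + ∑ j, K y a j * X j y) * X a y = 0 := by
    refine mul_left_cancel₀ m'.ne' ?_
    simp only [add_mul, Finset.sum_add_distrib]
    rw [show ∑ a, (∑ j, K y a j * X j y) * X a y = ev X y ⬝ᵥ mat K y *ᵥ ev X y from
      dotProduct_comm _ _]
    linarith
  refine mul_left_cancel₀ m'.ne' ?_
  simp only [Finset.mul_sum (a := N y), mul_left_comm (N y), rs_par hg h0,
    mul_left_comm _ (-mu g K y), ← Finset.mul_sum, e6, mul_zero]

theorem sy_kt (hg : Met g) (hK : Sy K) (hφ : Smooth φ) : Sy (kt g K φ) where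
  sm i j := ((sm_hess hg hφ i j).sub (hφ.mul ((((P366NW.sy_rc hg).sm i j).add
    ((sm_tr hg hK.sm).mul (hK.sm i j))).sub (contDiff_const.mul (sm_ml hg hK.sm hK.sm i j))))).add
      (((hφ.mul (sm_mu hg hK.sm)).div_const _).mul (hg.sm i j))
  sy x i j := by
    have : (mat (ml g K K) x)ᵀ = mat (ml g K K) x := by
      rw [mat_ml, transpose_mul, transpose_mul, inv_sy hg, Matrix.mul_assoc,
        show (mat K x)ᵀ = mat K x from Matrix.ext fun i j => hK.sy x j i]
    simp only [kt, hg.hess_sy (hφ.c2 x) i j, (P366NW.sy_rc hg).sy x i j, hK.sy x i j, hg.sy x i j,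
      show ml g K K x i j = ml g K K x j i from congrFun (congrFun this j) i]

/-- the integral of the variation of the time vanishes -/
theorem int_gt (hG : GT) (hn : 2 ≤ n) (hg : Met g) (hK : Sy K) (hφ : Smooth φ) (hV : IsOpen V)
    (hA : IsCompact A) (s : A ⊆ V) (h0 : ∀ y ∉ A, φ y = 0) (hN : LocallyLipschitzOn V N)
    (hX : ∀ i, LocallyLipschitzOn V (X i)) (hD : ∀ y ∈ V, Du g K N X y)
    (hk : ∀ᵐ y, y ∈ V → Kid g K N X y) :
    ∫ y, (N y * Lmu g K (fun y i j => 2 * φ y * K y i j) (kt g K φ) y + ∑ j, X j y *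
      Lmo g K (fun y i j => 2 * φ y * K y i j) (kt g K φ) j y) * dens g y = 0 := by
  obtain ⟨O, o1, o2, o3, o4⟩ := ext_lip hV hA s
  obtain ⟨N', n1, n2⟩ := o4 N hN
  choose X' x1 x2 using fun i => o4 (X i) (hX i)
  have sY : ∀ a, Smooth fun y => φ y * rs g (mom g K) a y := fun a =>
    ContDiff.mul hφ (sm_rs hg (sm_mom hg hK.sm) a)
  refine Eq.trans (integral_congr_ae ?_) (int_dv hg (Y := fun a y => N' y * (φ y *
    rs g (mom g K) a y)) (fun a => ll_mul (ll_lp n1) (ll_sm (sY a))) hA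
      fun y hy a => by simp [h0 y hy]).2
  filter_upwards [hk, n1.ae_diff, ae_all_iff.2 fun i => (x1 i).ae_diff] with y k1 k2 k3
  congr 1
  rw [hg.dv_smul k2 fun a => (sY a).diff y]
  by_cases hy : y ∈ A
  · have y1 := o2 hy
    have := pJ hg hK (Eventually.mono (hV.mem_nhds (s hy)) hD)
      (k2.congr_of_eventuallyEq (n2 y y1)) (fun i => (k3 i).congr_of_eventuallyEq (x2 i y y1))
      (k1 (s hy))
    simp only [add_mul, Finset.sum_add_distrib] at this
    rw [lin_gt hG hn hg hK hφ (hD y (s hy)), (n2 y y1).eq_of_nhds]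
    simp only [← pd_congr (n2 y y1), mul_left_comm _ (φ y), ← Finset.mul_sum]
    linear_combination -φ y * this
  · have e : φ =ᶠ[𝓝 y] fun _ => 0 := Eventually.mono (hA.isClosed.isOpen_compl.mem_nhds hy) h0
    obtain ⟨h1, h2⟩ := hG n g K φ y hn hg hK hφ
    have d : dv g (fun a y => φ y * rs g (mom g K) a y) y = 0 := by
      rw [dv_congr (Y := fun _ _ => 0) fun i => e.mono fun z r => by simp [r]]
      simp [dv, pd_const]
    simp [h1, Lmo, h2, d, h0 y hy, pd_congr e, pd_const]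

theorem mat_lie (hg : Met g) (Y : Vf n) (y : E n) :
    mat (lie g Y) y = (mat g y * Dm g Y y)ᵀ + mat g y * Dm g Y y := by
  ext i j
  have e : ∀ i j, ∑ a, Y a y * ∑ l, g y i l * chr g l a j y =
      ∑ k, g y i k * ∑ l, chr g k j l y * Y l y := fun i j => by
    simp only [Finset.mul_sum]
    rw [Finset.sum_comm]
    exact Finset.sum_congr rfl fun a _ => Finset.sum_congr rfl fun l _ => by
      rw [hg.chr_sy a l j]; ring
  rw [Matrix.add_apply, transpose_apply, mul_apply, mul_apply]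
  simp only [mat, lie, hg.pd_g, Dm, cd, of_apply, mul_add, Finset.sum_add_distrib, e, hg.sy y _ j]
  ring

theorem vi_ar (hg : Met g) (K : Field n) (Y : Vf n) (φ : E n → ℝ) (y : E n) (ν : Fin n → ℝ) :
    (tr g (lie g Y) y - ∑ i, ∑ j, lie g Y y i j * ν i * ν j) / 2 +
      (tr g (fun y i j => 2 * φ y * K y i j) y - ∑ i, ∑ j, 2 * φ y * K y i j * ν i * ν j) / 2 =
      vi g K Y φ y ν := by
  have e : trace ((mat g y)⁻¹ * (mat g y * Dm g Y y)ᵀ) = trace (Dm g Y y) := by
    rw [← trace_transpose, transpose_mul, transpose_transpose, inv_sy hg, trace_mul_comm,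
      ← Matrix.mul_assoc, inv_mul hg, Matrix.one_mul]
  rw [quad_mat (lie g Y), quad_mat fun y i j => 2 * φ y * K y i j, tr_eq hg, tr_eq hg, mat_lie hg,
    show mat (fun y i j => 2 * φ y * K y i j) y = (2 * φ y) • mat K y from rfl, vi, tr_eq hg,
    Matrix.mul_add, trace_add, e, ← Matrix.mul_assoc, inv_mul hg, Matrix.one_mul]
  simp only [add_mulVec, dotProduct_add, mulVec_transpose, smul_mulVec, dotProduct_smul,
    dotProduct_comm ν (_ ᵥ* _), ← dotProduct_mulVec, ← mulVec_mulVec, smul_eq_mul,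
    Matrix.mul_smul, trace_smul]
  ring

theorem ev_vi (hg : Met g) (hK : Sm K) (hY : ∀ i, Smooth (Y i)) (hφ : Smooth φ)
    (h : ∀ ν, ν ⬝ᵥ mat g x *ᵥ ν = 1 → 0 < vi g K Y φ x ν) :
    ∀ᶠ y in 𝓝 x, ∀ ν, ν ⬝ᵥ mat g y *ᵥ ν = 1 → 0 < vi g K Y φ y ν := by
  have p : Continuous fun z : E n × (Fin n → ℝ) => ((((0 : ℝ), z.1), z.2) : (ℝ × E n) × _) := by
    fun_prop
  have sD : Sm fun y i j => Dm g Y y i j := fun i j => ContDiff.add ((hY i).pd j)
    (ContDiff.sum fun k _ => (hg.sm_chr i j k).mul (hY k))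
  have sG : Sm fun y i j => (mat g y * Dm g Y y) i j := fun i j => by
    simp only [mul_apply]
    exact ContDiff.sum fun k _ => (hg.sm i k).mul (sD k j)
  obtain ⟨Q, hQ⟩ : ∃ Q : E n → (Fin n → ℝ) → ℝ, Q = fun y v =>
    (trace (Dm g Y y) + φ y * tr g K y) * (v ⬝ᵥ mat g y *ᵥ v) -
      v ⬝ᵥ (mat g y * Dm g Y y) *ᵥ v - φ y * (v ⬝ᵥ mat K y *ᵥ v) := ⟨_, rfl⟩
  have q1 : ∀ y v (c : ℝ), Q y (c • v) = c ^ 2 * Q y v := fun y v c => by
    simp only [hQ, mulVec_smul, dotProduct_smul, smul_dotProduct, smul_eq_mul]; ring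
  have q2 : ∀ y v, v ⬝ᵥ mat g y *ᵥ v = 1 → Q y v = vi g K Y φ y v := fun y v hv => by
    simp only [hQ, vi, hv, mulVec_mulVec]; ring
  have q3 : Continuous fun z : E n × (Fin n → ℝ) => Q z.1 z.2 := hQ ▸
    (((((continuous_finsetSum _ fun i _ => (sD i i).cont).add (hφ.cont.mul
      (sm_tr hg hK).cont)).comp continuous_fst).mul ((cont_q hg.sm).comp p)).sub
      ((cont_q sG).comp p)).sub ((hφ.cont.comp continuous_fst).mul ((cont_q hK).comp p))
  refine ((isCompact_sphere (0 : Fin n → ℝ) 1).eventually_forall_of_forall_eventually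
    (P := fun y v => 0 < Q y v) fun v hv => q3.continuousAt.eventually (lt_mem_nhds ?_)).mono
      fun y hy v hv => ?_
  · have s : 0 < v ⬝ᵥ mat g x *ᵥ v := by
      rw [← quad_mat]; exact hg.g_pos x fun e => by simp [e] at hv
    have u : ((√(v ⬝ᵥ mat g x *ᵥ v))⁻¹ • v) ⬝ᵥ mat g x *ᵥ ((√(v ⬝ᵥ mat g x *ᵥ v))⁻¹ • v) = 1 := by
      rw [mulVec_smul, dotProduct_smul, smul_dotProduct, smul_eq_mul, smul_eq_mul, ← mul_assoc,
        ← _root_.mul_inv, Real.mul_self_sqrt s.le, inv_mul_cancel₀ s.ne']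
    have := h _ u
    rw [← q2 _ _ u, q1] at this
    exact (mul_pos_iff_of_pos_left (by positivity)).1 this
  · have v0 : 0 < ‖v‖ := norm_pos_iff.2 fun e => by simp [e] at hv
    have := hy (‖v‖⁻¹ • v) (by simp [norm_smul, v0.ne'])
    rw [q1, q2 _ _ hv] at this
    exact (mul_pos_iff_of_pos_left (by positivity)).1 this

end Vale.Agent.P366XR
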