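import Vale.Agent.P366Z.Calc
import Vale.Agent.P366XR.Tan
import Mathlib.Analysis.Calculus.DerivativeTest

/-!
# P366XR: comparison of the expansions of two surfaces which touch
-/

set_option linter.all false

open Filter Topology
open scoped ContDiff
open Vale.Agent.P366.Stmt Vale.Agent.P366Z

noncomputable section

namespace Vale.Agent.P366XR

variable {n : ℕ} {g K : Field n} {f F : E n → ℝ} {x : E n}

theorem hd_curve {γ : ℝ → E n} {v : E n} {t : ℝ} (hγ : HasDerivAt γ v t)
    (hf : DifferentiableAt ℝ f (γ t)) :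
    HasDerivAt (fun s => f (γ s)) (∑ i, v i * pd i f (γ t)) t := by
  rw [← fderiv_eq_sum hf]
  exact hf.hasFDerivAt.comp_hasDerivAt t hγ

/-- the parabola through `x` -/
def par (x : E n) (v e : Fin n → ℝ) (t : ℝ) : E n :=
  x + t • WithLp.toLp 2 v + t ^ 2 • WithLp.toLp 2 e

theorem par_zero (x : E n) (v e : Fin n → ℝ) : par x v e 0 = x := by simp [par]

theorem hd_par (x : E n) (v e : Fin n → ℝ) (t : ℝ) :
    HasDerivAt (par x v e) (WithLp.toLp 2 fun i => v i + 2 * t * e i) t := by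
  have h := (((hasDerivAt_id' t).smul_const (WithLp.toLp 2 v : E n)).const_add x).add
    ((hasDerivAt_pow 2 t).smul_const (WithLp.toLp 2 e : E n))
  refine h.congr_deriv ?_
  ext i
  simp

theorem tend_par (x : E n) (v e : Fin n → ℝ) : Tendsto (par x v e) (𝓝 0) (𝓝 x) := by
  simpa only [ContinuousAt, par_zero] using (hd_par x v e 0).continuousAt

theorem par2 (hf : ContDiffAt ℝ 2 f x) (v e : Fin n → ℝ) :
    HasDerivAt (fun t => f (par x v e t)) (∑ i, v i * pd i f x) 0 ∧
    deriv (deriv fun t => f (par x v e t)) 0 =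
      2 * ∑ i, e i * pd i f x + ∑ i, ∑ j, pd i (pd j f) x * v i * v j := by
  have h1 : ∀ᶠ t in 𝓝 (0 : ℝ), HasDerivAt (fun t => f (par x v e t))
      (∑ i, (v i + 2 * t * e i) * pd i f (par x v e t)) t :=
    ((tend_par x v e).eventually (ev_diff hf)).mono fun t ht => hd_curve (hd_par x v e t) ht
  refine ⟨by simpa [par_zero] using h1.self_of_nhds, ?_⟩
  rw [EventuallyEq.deriv_eq (h1.mono fun t ht => ht.deriv)]
  have h2 := HasDerivAt.fun_sum (u := Finset.univ) fun (i : Fin n) _ =>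
    ((((hasDerivAt_id' (0 : ℝ)).const_mul 2).mul_const (e i)).const_add (v i)).fun_mul
      (hd_curve (f := pd i f) (hd_par x v e 0) (by rw [par_zero]; exact diffAt_pd hf i))
  rw [h2.deriv, Finset.sum_comm (f := fun i j => pd i (pd j f) x * v i * v j), Finset.mul_sum,
    ← Finset.sum_add_distrib]
  refine Finset.sum_congr rfl fun i _ => ?_
  simp only [par_zero, mul_zero, zero_mul, add_zero, Finset.mul_sum]
  congr 1
  · ring
  · exact Finset.sum_congr rfl fun j _ => by ring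

theorem max2 {b : ℝ → ℝ} (h : IsLocalMax b 0) (hc : ContinuousAt b 0) : deriv (deriv b) 0 ≤ 0 := by
  by_contra k
  have e : b =ᶠ[𝓝 0] fun _ => b 0 :=
    (h.and (isLocalMin_of_deriv_deriv_pos (not_le.1 k) h.deriv_eq_zero hc)).mono
      fun t ht => le_antisymm ht.1 ht.2
  rw [e.deriv.deriv_eq] at k
  simp at k

/-- the jets of two functions with `{F ≤ 0} ⊆ {f ≤ 0}` near a common zero -/
theorem jet_cmp (hF : ContDiffAt ℝ 2 F x) (hf : ContDiffAt ℝ 2 f x) (F0 : F x = 0) (f0 : f x = 0)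
    (dF : ∃ i, pd i F x ≠ 0) (h : ∀ᶠ y in 𝓝 x, F y ≤ 0 → f y ≤ 0) :
    ∃ c, 0 ≤ c ∧ (∀ i, pd i f x = c * pd i F x) ∧ ∀ v : Fin n → ℝ, ∑ i, v i * pd i F x = 0 →
      ∑ i, ∑ j, pd i (pd j f) x * v i * v j ≤ c * ∑ i, ∑ j, pd i (pd j F) x * v i * v j := by
  have key : ∀ v e : Fin n → ℝ, ∑ i, v i * pd i F x = 0 →
      2 * ∑ i, e i * pd i F x + ∑ i, ∑ j, pd i (pd j F) x * v i * v j < 0 →
      ∑ i, v i * pd i f x = 0 ∧
        2 * ∑ i, e i * pd i f x + ∑ i, ∑ j, pd i (pd j f) x * v i * v j ≤ 0 := by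
    intro v e h1 h2
    obtain ⟨a1, a2⟩ := par2 hF v e
    obtain ⟨b1, b2⟩ := par2 hf v e
    have m := isLocalMax_of_deriv_deriv_neg (a2.trans_lt h2) (a1.deriv.trans h1) a1.continuousAt
    have m' : IsLocalMax (fun t => f (par x v e t)) 0 :=
      (m.and ((tend_par x v e).eventually h)).mono fun t ht => by
        simp only [par_zero, F0, f0] at ht ⊢
        exact ht.2 ht.1
    exact ⟨m'.hasDerivAt_eq_zero b1, b2 ▸ max2 m' b1.continuousAt⟩
  obtain ⟨k, hk⟩ := dF
  have s : ∀ (a : ℝ) (u : Fin n → ℝ), ∑ i, (Pi.single k a : Fin n → ℝ) i * u i = a * u k :=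
    fun a u => by simp [Pi.single_apply]
  have c0 : 0 ≤ pd k f x / pd k F x := by
    have := (key 0 (Pi.single k (-(pd k F x)⁻¹)) (by simp) (by simp [s, hk])).2
    simp only [s, Pi.zero_apply, mul_zero, Finset.sum_const_zero] at this
    rw [div_eq_inv_mul]
    linarith
  have t : ∀ v : Fin n → ℝ, ∑ i, v i * pd i F x = 0 → ∀ η > 0, ∑ i, v i * pd i f x = 0 ∧
      ∑ i, ∑ j, pd i (pd j f) x * v i * v j ≤
        pd k f x / pd k F x * (∑ i, ∑ j, pd i (pd j F) x * v i * v j + η) := by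
    intro v hv η hη
    have := key v (Pi.single k (-(∑ i, ∑ j, pd i (pd j F) x * v i * v j + η) / 2 / pd k F x)) hv
      (by rw [s, div_mul_cancel₀ _ hk]; linarith)
    rw [s] at this
    refine ⟨this.1, ?_⟩
    have h2 := this.2
    generalize ∑ i, ∑ j, pd i (pd j F) x * v i * v j + η = Q at h2 ⊢
    rw [show pd k f x / pd k F x * Q = -(2 * (-Q / 2 / pd k F x * pd k f x)) by ring]
    linarith
  refine ⟨_, c0, fun i => ?_, fun v hv => ?_⟩
  · have := (t (Pi.single i 1 - Pi.single k (pd i F x / pd k F x)) (by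
      simp [sub_mul, Finset.sum_sub_distrib, Pi.single_apply, hk]) 1 one_pos).1
    simp only [Pi.sub_apply, sub_mul, Finset.sum_sub_distrib, s] at this
    simp only [Pi.single_apply, ite_mul, one_mul, zero_mul, Finset.sum_ite_eq', Finset.mem_univ,
      if_true] at this
    rw [sub_eq_zero.1 this]
    ring
  · refine ge_of_tendsto (x := 𝓝[>] (0 : ℝ)) (f := fun η => pd k f x / pd k F x *
      (∑ i, ∑ j, pd i (pd j F) x * v i * v j + η)) ?_
      (eventually_mem_nhdsWithin.mono fun η hη => (t v hv η hη).2)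
    exact (Continuous.tendsto' (by fun_prop) 0 _ (by simp)).mono_left nhdsWithin_le_nhds

/-- **CMP**: the inner surface `{F = 0}` has the larger expansion -/
theorem cmp (hp : (mat g x).PosDef) (hF : ContDiffAt ℝ 2 F x) (hf : ContDiffAt ℝ 2 f x)
    (F0 : F x = 0) (f0 : f x = 0) (dF : ∃ i, pd i F x ≠ 0) (df : ∃ i, pd i f x ≠ 0)
    (h : ∀ᶠ y in 𝓝 x, F y ≤ 0 → f y ≤ 0) : thetaPlus g K f x ≤ thetaPlus g K F x := by
  obtain ⟨c, c0, h1, h2⟩ := jet_cmp hF hf F0 f0 dF h
  have c1 : 0 < c := c0.lt_of_ne fun e => by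
    obtain ⟨i, hi⟩ := df
    exact hi (by rw [h1, ← e, zero_mul])
  have w := C92.covNorm_pos (g := g) (w := fun j => pd j F) hp dF
  have k := C92.trS_nonneg (T := fun y i j => hess g F y i j - c⁻¹ * hess g f y i j) hp w.ne'
    fun v hv => by
      have e : ∀ i j, (hess g F x i j - c⁻¹ * hess g f x i j) * v i * v j =
          pd i (pd j F) x * v i * v j - c⁻¹ * (pd i (pd j f) x * v i * v j) := fun i j => by
        simp only [hess, h1, mul_left_comm _ c, ← Finset.mul_sum]
        field_simp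
        ring
      simp only [e, Finset.sum_sub_distrib, ← Finset.mul_sum]
      rw [sub_nonneg, inv_mul_le_iff₀ c1]
      exact h2 v hv
  rw [C92.trS_sub_smul] at k
  unfold thetaPlus
  rw [C92.trS_congr c1 h1, C92.trS_congr c1 h1,
    C92.covNorm_smul (w := fun j => pd j f) (w' := fun j => pd j F) c0 h1, ← div_div,
    div_eq_inv_mul _ c]
  gcongr
  linarith

end Vale.Agent.P366XR
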