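import Vale.Agent.P366XR.Cov
import Vale.Agent.P366XR.Cmp
import Vale.Agent.P366K2.Defs

/-!
# P366XR: the test fields which show that the support of a stationary measure is trapped
-/

set_option linter.all false

open Filter Topology Matrix Metric Set
open scoped ContDiff
open Vale.Agent.P366.Stmt Vale.Agent.P366Z
open Vale.Agent.P366K2 (Tst)

noncomputable section

namespace Vale.Agent.P366XR

variable {n : ℕ} {g K : Field n} {f u a : E n → ℝ} {x y : E n}

/-- the trace of `∇ Y + φ K` over the orthogonal complement of the unit vector `ν` -/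
def vi (g K : Field n) (Y : Vf n) (φ : E n → ℝ) (y : E n) (ν : Fin n → ℝ) : ℝ :=
  trace (Dm g Y y) - ν ⬝ᵥ mat g y *ᵥ Dm g Y y *ᵥ ν + φ y * (tr g K y - ν ⬝ᵥ mat K y *ᵥ ν)

/-- the two quadratic forms -/
def qA (g : Field n) (u : E n → ℝ) (y : E n) (v : Fin n → ℝ) : ℝ :=
  ip g u u y * (v ⬝ᵥ mat g y *ᵥ v) - (dd u y ⬝ᵥ v) ^ 2
def qB (g K : Field n) (u : E n → ℝ) (y : E n) (v : Fin n → ℝ) : ℝ :=
  (tr g (hess g u) y + gn g u y * tr g K y) * (v ⬝ᵥ mat g y *ᵥ v) -
    (v ⬝ᵥ mat (hess g u) y *ᵥ v + gn g u y * (v ⬝ᵥ mat K y *ᵥ v))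

theorem qA_smul (c : ℝ) (v : Fin n → ℝ) : qA g u y (c • v) = c ^ 2 * qA g u y v := by
  simp only [qA, mulVec_smul, dotProduct_smul, smul_dotProduct, smul_eq_mul]; ring

theorem qB_smul (c : ℝ) (v : Fin n → ℝ) : qB g K u y (c • v) = c ^ 2 * qB g K u y v := by
  simp only [qB, mulVec_smul, dotProduct_smul, smul_dotProduct, smul_eq_mul]; ring

theorem ev_gr (g : Field n) (u : E n → ℝ) (y : E n) : ev (gr g u) y = (mat g y)⁻¹ *ᵥ dd u y := rfl

theorem ip_dd (g : Field n) (u : E n → ℝ) (y : E n) :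
    ip g u u y = dd u y ⬝ᵥ (mat g y)⁻¹ *ᵥ dd u y := by
  simp only [ip, dotProduct, mulVec, dd, up, Finset.mul_sum]
  exact Finset.sum_congr rfl fun i _ => Finset.sum_congr rfl fun j _ => by ring

theorem quad_mat (T : Field n) (y : E n) (v : Fin n → ℝ) :
    ∑ i, ∑ j, T y i j * v i * v j = v ⬝ᵥ mat T y *ᵥ v := by
  simp only [dotProduct, mulVec, mat, Finset.mul_sum]
  exact Finset.sum_congr rfl fun i _ => Finset.sum_congr rfl fun j _ => by ring

theorem lo_gr (hg : Met g) (u : E n → ℝ) (y : E n) : mat g y *ᵥ ev (gr g u) y = dd u y := by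
  rw [ev_gr, mulVec_mulVec, mul_inv hg, one_mulVec]

theorem dot_sy (hg : Met g) (y : E n) (v w : Fin n → ℝ) :
    v ⬝ᵥ mat g y *ᵥ w = w ⬝ᵥ mat g y *ᵥ v := by
  rw [dotProduct_mulVec, ← mulVec_transpose, mat_sy hg, dotProduct_comm]

theorem qA_id (hg : Met g) (v : Fin n → ℝ) :
    (ip g u u y • v - (dd u y ⬝ᵥ v) • ev (gr g u) y) ⬝ᵥ mat g y *ᵥ
      (ip g u u y • v - (dd u y ⬝ᵥ v) • ev (gr g u) y) = ip g u u y * qA g u y v := by
  have e1 : ev (gr g u) y ⬝ᵥ dd u y = ip g u u y := by rw [ip_dd, dotProduct_comm, ev_gr]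
  simp only [qA, mulVec_sub, mulVec_smul, dotProduct_sub, sub_dotProduct, dotProduct_smul,
    smul_dotProduct, smul_eq_mul, dot_sy hg y (ev (gr g u) y) v, lo_gr hg, e1,
    dotProduct_comm v (dd u y)]
  ring

theorem g_nn (hg : Met g) (y : E n) (v : Fin n → ℝ) : 0 ≤ v ⬝ᵥ mat g y *ᵥ v := by
  rw [← quad_mat]; exact hg.g_nonneg y v

theorem qA_nonneg (hg : Met g) (h : 0 < ip g u u y) (v : Fin n → ℝ) : 0 ≤ qA g u y v :=
  (mul_nonneg_iff_of_pos_left h).1 (qA_id hg v ▸ g_nn hg y _)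

theorem qB_pos (hg : Met g) (h : 0 < ip g u u y) (hθ : 0 < thetaPlus g K u y) {v : Fin n → ℝ}
    (hv : v ≠ 0) (h0 : qA g u y v = 0) : 0 < qB g K u y v := by
  have w : 0 < gn g u y := Real.sqrt_pos.2 h
  have z : ip g u u y • v - (dd u y ⬝ᵥ v) • ev (gr g u) y = 0 := by
    by_contra k
    have := hg.g_pos y k
    rw [quad_mat, qA_id hg, h0, mul_zero] at this
    exact this.false
  have e : ev (gr g u) y = gn g u y • fun i => nrm g u i y := by
    ext i
    simp only [nrm, ← gn_eq_covNorm, Pi.smul_apply, smul_eq_mul, mul_div_cancel₀ _ w.ne']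
    rfl
  have e1 : (fun i => nrm g u i y) ⬝ᵥ mat g y *ᵥ (fun i => nrm g u i y) = 1 := by
    have : ev (gr g u) y ⬝ᵥ mat g y *ᵥ ev (gr g u) y = gn g u y ^ 2 := by
      rw [lo_gr hg, hg.gn_sq, ip_dd, dotProduct_comm, ev_gr]
    rw [e, mulVec_smul, dotProduct_smul, smul_dotProduct, smul_eq_mul, smul_eq_mul, ← mul_assoc,
      ← sq] at this
    exact mul_left_cancel₀ (pow_pos w 2).ne' (this.trans (mul_one _).symm)
  have e2 : v = ((ip g u u y)⁻¹ * (dd u y ⬝ᵥ v) * gn g u y) • fun i => nrm g u i y := by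
    rw [mul_smul, mul_smul, ← e, ← sub_eq_zero.1 z, inv_smul_smul₀ h.ne']
  generalize (ip g u u y)⁻¹ * (dd u y ⬝ᵥ v) * gn g u y = c at e2
  have c0 : c ≠ 0 := fun k => hv (by rw [e2, k, zero_smul])
  have e3 : qB g K u y (fun i => nrm g u i y) = gn g u y * thetaPlus g K u y := by
    simp only [qB, e1, thetaPlus, trS, ← gn_eq_covNorm, ← quad_mat]
    field_simp
    ring
  rw [e2, qB_smul, e3]
  positivity

theorem vi_eq (hg : Met g) (ha : DifferentiableAt ℝ a y) (hu : ContDiffAt ℝ 2 u y)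
    (ν : Fin n → ℝ) : vi g K (fun i y => a y * gr g u i y) (fun y => a y * gn g u y) y ν =
      a y * (tr g (hess g u) y + gn g u y * tr g K y -
        (ν ⬝ᵥ mat (hess g u) y *ᵥ ν + gn g u y * (ν ⬝ᵥ mat K y *ᵥ ν))) +
      (ev (gr g u) y ⬝ᵥ dd a y - (dd u y ⬝ᵥ ν) * (dd a y ⬝ᵥ ν)) := by
  rw [vi, Dm_smul g ha (hg.diff_gr hu), Dm_gr hg hu, tr_eq hg (hess g u)]
  simp only [trace_add, trace_smul, trace_vecMulVec, add_mulVec, smul_mulVec, mulVec_add,
    mulVec_smul, vecMulVec_mulVec, op_smul_eq_smul, lo_gr hg, dotProduct_add, dotProduct_smul,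
    smul_eq_mul, ← mulVec_mulVec, dotProduct_comm ν (dd u y)]
  rw [mulVec_mulVec _ (mat g y), mul_inv hg, one_mulVec]
  ring

theorem cont_q {T : Field n} (hT : Sm T) :
    Continuous fun z : (ℝ × E n) × (Fin n → ℝ) => z.2 ⬝ᵥ mat T z.1.2 *ᵥ z.2 :=
  continuous_snd.dotProduct (Continuous.matrix_mulVec (continuous_matrix fun i j =>
    (hT i j).cont.comp (continuous_snd.comp continuous_fst)) continuous_snd)

theorem sm_hess (hg : Met g) (hu : Smooth u) : Sm (hess g u) := fun i j =>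
  ContDiff.sub ((hu.pd j).pd i) (ContDiff.sum fun k _ => ContDiff.mul (hg.sm_chr k i j) (hu.pd k))

theorem ev_pos (hg : Met g) (hK : Sm K) (hu : Smooth u) (h : 0 < ip g u u x)
    (hθ : 0 < thetaPlus g K u x) : ∀ᶠ z : ℝ × E n in 𝓝 (0, x), 0 < ip g u u z.2 ∧
      ∀ v ≠ 0, 0 < z.1 → 0 < qA g u z.2 v + z.1 * qB g K u z.2 v := by
  have p : Continuous fun z : (ℝ × E n) × (Fin n → ℝ) => z.1.2 := by fun_prop
  have ci := (hg.sm_ip hu hu).cont
  have cA : Continuous fun z : (ℝ × E n) × (Fin n → ℝ) => qA g u z.1.2 z.2 :=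
    ((ci.comp p).mul (cont_q hg.sm)).sub
      (((continuous_pi fun i => (hu.pd i).cont.comp p).dotProduct continuous_snd).pow 2)
  have cB : Continuous fun z : (ℝ × E n) × (Fin n → ℝ) => qB g K u z.1.2 z.2 :=
    ((((sm_tr hg (sm_hess hg hu)).cont.comp p).add ((ci.sqrt.comp p).mul
      ((sm_tr hg hK).cont.comp p))).mul (cont_q hg.sm)).sub
      ((cont_q (sm_hess hg hu)).add ((ci.sqrt.comp p).mul (cont_q hK)))
  have h1 : ∀ᶠ z : ℝ × E n in 𝓝 (0, x), 0 < ip g u u z.2 :=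
    (ci.comp continuous_snd).continuousAt.eventually (lt_mem_nhds h)
  have h2 := (isCompact_sphere (0 : Fin n → ℝ) 1).eventually_forall_of_forall_eventually
    (x₀ := ((0, x) : ℝ × E n)) (P := fun z v => 0 < z.1 → 0 < qA g u z.2 v + z.1 * qB g K u z.2 v)
    fun v hv => by
      rcases (qA_nonneg hg h v).eq_or_lt with k | k
      · have v0 : v ≠ 0 := fun e => by simp [e] at hv
        filter_upwards [cB.continuousAt.eventually (lt_mem_nhds (qB_pos hg h hθ v0 k.symm)),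
          continuous_fst.continuousAt.eventually h1] with z z1 z2 z3
        exact add_pos_of_nonneg_of_pos (qA_nonneg hg z2 _) (mul_pos z3 z1)
      · refine ((cA.add ((continuous_fst.comp continuous_fst).mul cB)).continuousAt.eventually
          (lt_mem_nhds (a := 0) ?_)).mono fun z z1 _ => z1
        simpa using k
  refine (h1.and h2).mono fun z hz => ⟨hz.1, fun v hv t => ?_⟩
  have v0 := norm_pos_iff.2 hv
  have := hz.2 (‖v‖⁻¹ • v) (by simp [norm_smul, v0.ne']) t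
  rw [qA_smul, qB_smul, mul_left_comm, ← mul_add] at this
  exact (mul_pos_iff_of_pos_left (by positivity)).1 this

theorem exists_pert (hf : Smooth f) (h : 0 < thetaPlus g K f x) : ∃ ε > (0 : ℝ),
    (∀ i, pd i (fun y => f y - ε * ‖y - x‖ ^ 2) x = pd i f x) ∧
      0 < thetaPlus g K (fun y => f y - ε * ‖y - x‖ ^ 2) x := by
  have q : Smooth fun y : E n => ‖y - x‖ ^ 2 :=
    contDiff_normSq.comp (contDiff_id.sub contDiff_const)
  have d : ∀ (ε : ℝ) i, pd i (fun y => f y - ε * ‖y - x‖ ^ 2) =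
      fun y => pd i f y - ε * pd i (fun y => ‖y - x‖ ^ 2) y := fun ε i => funext fun y => by
    rw [pd_sub (hf.diff y) ((q.diff y).const_mul ε), pd_const_mul]
  have d0 : ∀ (ε : ℝ) i, pd i (fun y => f y - ε * ‖y - x‖ ^ 2) x = pd i f x := fun ε i => by
    rw [d]
    simp [pd_translate (f := fun y => ‖y‖ ^ 2), pd_normSq]
  have e : ∀ ε : ℝ, thetaPlus g K (fun y => f y - ε * ‖y - x‖ ^ 2) x = thetaPlus g K f x -
      ε * (trS g (hess g fun y => ‖y - x‖ ^ 2) f x / covNorm g (fun j => pd j f) x) := fun ε => by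
    have h1 : ∀ i, pd i (fun y => f y - ε * ‖y - x‖ ^ 2) x = 1 * pd i f x := fun i => by
      rw [d0, one_mul]
    have h2 : hess g (fun y => f y - ε * ‖y - x‖ ^ 2) =
        fun y i j => hess g f y i j - ε * hess g (fun y => ‖y - x‖ ^ 2) y i j := by
      funext y i j
      simp only [hess, d, pd_sub ((hf.pd j).diff y) (((q.pd j).diff y).const_mul ε), pd_const_mul,
        mul_sub, Finset.sum_sub_distrib, Finset.mul_sum, mul_left_comm ε]
      ring
    unfold thetaPlus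
    rw [C92.trS_congr one_pos h1, C92.trS_congr one_pos h1, C92.covNorm_smul
      (w := fun j => pd j fun y => f y - ε * ‖y - x‖ ^ 2) (w' := fun j => pd j f) zero_le_one h1,
      h2, C92.trS_sub_smul]
    ring
  simp only [e]
  generalize trS g (hess g fun y => ‖y - x‖ ^ 2) f x / covNorm g (fun j => pd j f) x = c
  have : ∀ᶠ ε in 𝓝[>] (0 : ℝ), 0 < thetaPlus g K f x - ε * c :=
    ((show Continuous fun ε : ℝ => thetaPlus g K f x - ε * c by fun_prop).continuousAt.eventually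
      (lt_mem_nhds (by simpa using h))).filter_mono nhdsWithin_le_nhds
  obtain ⟨ε, h1, h2⟩ := (this.and eventually_mem_nhdsWithin).exists
  exact ⟨ε, h2, d0 ε, h1⟩

/-- **the test fields** -/
theorem exists_test (hg : Met g) (hK : Sm K) (hf : Smooth f) (f0 : f x = 0)
    (df : ∃ i, pd i f x ≠ 0) (h : 0 < thetaPlus g K f x) {U : Set (E n)} (hU : U ∈ 𝓝 x) :
    ∃ Y φ, (∀ i, Tst U (Y i)) ∧ Tst U φ ∧ 0 < φ x ∧ ∀ y ν,
      (y ∈ U → ν ⬝ᵥ mat g y *ᵥ ν = 1 ∧ f y ≤ 0) →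
        0 ≤ vi g K Y φ y ν ∧ (φ y ≠ 0 → 0 < vi g K Y φ y ν) := by
  obtain ⟨ε, ε0, d0, hθ⟩ := exists_pert hf h
  have su : Smooth fun y => f y - ε * ‖y - x‖ ^ 2 := ContDiff.sub hf
    (contDiff_const.mul (contDiff_normSq.comp (contDiff_id.sub contDiff_const)))
  obtain ⟨u, hu⟩ : ∃ u : E n → ℝ, u = fun y => f y - ε * ‖y - x‖ ^ 2 := ⟨_, rfl⟩
  rw [← hu] at d0 hθ su
  have i0 : 0 < ip g u u x := hg.up_pos x (ξ := fun i => pd i u x) fun e => by
    obtain ⟨i, hi⟩ := df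
    exact hi ((d0 i).symm.trans (congrFun e i))
  obtain ⟨δ, δ0, hδ⟩ := Metric.eventually_nhds_iff.1 ((ev_pos hg hK su i0 hθ).and
    ((continuous_snd.tendsto ((0, x) : ℝ × E n)).eventually hU))
  have : ∀ᶠ r in 𝓝[>] (0 : ℝ), 2 * r < δ ∧ (ε * r ^ 2) ^ 2 < δ := (Eventually.and
    ((show Continuous fun r : ℝ => 2 * r by fun_prop).continuousAt.eventually
      (gt_mem_nhds (by simpa using δ0)))
    ((show Continuous fun r : ℝ => (ε * r ^ 2) ^ 2 by fun_prop).continuousAt.eventually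
      (gt_mem_nhds (by simpa using δ0)))).filter_mono nhdsWithin_le_nhds
  obtain ⟨r, ⟨r1, r2⟩, r0⟩ := (this.and eventually_mem_nhdsWithin).exists
  replace r0 : 0 < r := r0
  have hb : ∀ t y, |t| < δ → y ∈ closedBall x (2 * r) → dist ((t, y) : ℝ × E n) (0, x) < δ :=
    fun t y h1 h2 => by
      rw [Prod.dist_eq, max_lt_iff]
      exact ⟨by simpa using h1, lt_of_le_of_lt h2 r1⟩
  have hb0 := fun y h2 => hδ (hb 0 y (by simpa using δ0) h2)
  let χ : ContDiffBump x := ⟨r, 2 * r, r0, by linarith⟩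
  obtain ⟨a, ha⟩ : ∃ a : E n → ℝ, a = fun y => χ y * expNegInvGlue (u y + ε * r ^ 2) := ⟨_, rfl⟩
  have sa : Smooth a := ha ▸ ContDiff.mul χ.contDiff
    (expNegInvGlue.contDiff.comp (ContDiff.add su contDiff_const))
  have a0 : ∀ y, 0 ≤ a y := fun y => ha ▸ mul_nonneg χ.nonneg (expNegInvGlue.nonneg _)
  have ta : tsupport a ⊆ closedBall x (2 * r) := ha ▸ tsupport_mul_subset_left.trans χ.tsupport_eq.le
  have tst : ∀ b : E n → ℝ, (∀ y ∈ closedBall x (2 * r), ContDiffAt ℝ ∞ b y) →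
      Tst U fun y => a y * b y := fun b hb => ⟨contDiff_iff_contDiffAt.2 fun y => by
        by_cases k : y ∈ tsupport a
        · exact (ContDiff.contDiffAt sa).mul (hb y (ta k))
        · exact (contDiffAt_const (c := (0 : ℝ))).congr_of_eventuallyEq
            ((notMem_tsupport_iff_eventuallyEq.1 k).mono fun z hz => by simp [hz]),
      (isCompact_closedBall x (2 * r)).of_isClosed_subset (isClosed_tsupport _)
        (tsupport_mul_subset_left.trans ta),
      (tsupport_mul_subset_left.trans ta).trans fun y hy => (hb0 y hy).2⟩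
  refine ⟨fun i y => a y * gr g u i y, fun y => a y * gn g u y,
    fun i => tst _ fun y _ => ContDiff.contDiffAt (hg.sm_gr su i),
    tst _ fun y hy => (ContDiff.contDiffAt (hg.sm_ip su su)).sqrt (hb0 y hy).1.1.ne',
    mul_pos ?_ (Real.sqrt_pos.2 i0), fun y ν hy => ?_⟩
  · rw [ha]
    refine mul_pos (χ.pos_of_mem_ball (mem_ball_self χ.rOut_pos)) (expNegInvGlue.pos_of_pos ?_)
    simpa [hu, f0] using mul_pos ε0 (pow_pos r0 2)
  rw [vi_eq hg (sa.diff y) (su.c2 y)]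
  by_cases k : a y = 0
  · have : dd a y = 0 := funext fun i => by
      rw [dd, pd_eq (sa.diff y), IsLocalMin.fderiv_eq_zero
        (Eventually.of_forall fun z => k.trans_le (a0 z))]
      rfl
    simp [k, this]
  have yb := ta (subset_tsupport _ k)
  obtain ⟨n1, fy⟩ := hy (hb0 y yb).2
  have t0 : 0 < u y + ε * r ^ 2 := not_le.1 fun e => k (by
    simp only [ha, expNegInvGlue.zero_of_nonpos e, mul_zero])
  have t1 : u y + ε * r ^ 2 ≤ ε * r ^ 2 := by
    have := mul_nonneg ε0.le (sq_nonneg ‖y - x‖)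
    simp only [hu]
    linarith
  have yr : y ∈ ball x χ.rIn := by
    have : ε * ‖y - x‖ ^ 2 < ε * r ^ 2 := by simp only [hu] at t0; linarith
    exact mem_ball_iff_norm.2 (lt_of_pow_lt_pow_left₀ 2 r0.le (lt_of_mul_lt_mul_left this ε0.le))
  have ea : a =ᶠ[𝓝 y] fun z => expNegInvGlue (u z + ε * r ^ 2) :=
    (χ.eventuallyEq_one_of_mem_ball yr).mono fun z hz => by simp only [ha, hz, Pi.one_apply, one_mul]
  have da : dd a y = ((u y + ε * r ^ 2)⁻¹ ^ 2 * a y) • dd u y := funext fun i => by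
    have := expNegInvGlue.hasDerivAt_polynomial_eval_inv_mul 1 (u y + ε * r ^ 2)
    simp only [Polynomial.eval_one, one_mul, Polynomial.derivative_one, sub_zero, mul_one,
      Polynomial.eval_pow, Polynomial.eval_X] at this
    rw [dd, pd_congr ea, pd_comp (f := fun z => u z + ε * r ^ 2) this ((su.diff y).add_const _),
      pd_add_const, ea.self_of_nhds]
    rfl
  have key := (hδ (hb ((u y + ε * r ^ 2) ^ 2) y (by
    rw [abs_of_nonneg (sq_nonneg _)]
    exact (pow_le_pow_left₀ t0.le t1 2).trans_lt r2) yb)).1.2 ν (fun e => by simp [e] at n1)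
    (by positivity)
  have ap : 0 < a y := (a0 y).lt_of_ne' k
  have e1 : ev (gr g u) y ⬝ᵥ dd u y = ip g u u y := by rw [ip_dd, dotProduct_comm, ev_gr]
  simp only [qA, qB, n1, mul_one] at key
  rw [da, dotProduct_smul, smul_dotProduct, e1, smul_eq_mul, smul_eq_mul]
  generalize u y + ε * r ^ 2 = t at t0 key
  have := mul_pos (mul_pos (pow_pos (inv_pos.2 t0) 2) ap) key
  refine ⟨le_of_lt ?_, fun _ => ?_⟩ <;> refine this.trans_eq ?_ <;> field_simp <;> ring

/-- **VIS**: `l` is the filter of the sets of full measure -/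
theorem vis {W : Type*} (l : Filter W) (π : W → E n) (ν : W → Fin n → ℝ) (hg : Met g) (hK : Sm K)
    (hf : Smooth f) (f0 : f x = 0) (df : ∃ i, pd i f x ≠ 0) {U : Set (E n)} (hU : U ∈ 𝓝 x)
    (h1 : ∀ᶠ w in l, π w ∈ U → ν w ⬝ᵥ mat g (π w) *ᵥ ν w = 1 ∧ f (π w) ≤ 0)
    (h2 : ∀ V ∈ 𝓝 x, ∃ᶠ w in l, π w ∈ V)
    (h3 : ∀ Y φ, (∀ i, Tst U (Y i)) → Tst U φ → (∀ᶠ w in l, 0 ≤ vi g K Y φ (π w) (ν w)) →
      ∀ᶠ w in l, vi g K Y φ (π w) (ν w) = 0) : thetaPlus g K f x ≤ 0 := by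
  by_contra h
  obtain ⟨Y, φ, hY, hφ, p, k⟩ := exists_test hg hK hf f0 df (not_le.1 h) hU
  obtain ⟨w, w1, w2, w3⟩ := ((h2 _ (hφ.sm.continuous.continuousAt.eventually_ne p.ne')).and_eventually
    (h1.and (h3 Y φ hY hφ (h1.mono fun w hw => (k _ _ hw).1)))).exists
  exact ((k _ _ w2).2 w1).ne' w3

end Vale.Agent.P366XR
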