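import Vale.Agent.P366XR.Loc
import Vale.Agent.P366K.Cv
import Vale.Agent.P366F.Ks
import Mathlib.Analysis.Distribution.AEEqOfIntegralContDiff

/-!
# P366XR: the first adjoint equation holds almost everywhere
-/

set_option linter.all false

open MeasureTheory Filter Topology Matrix Set
open scoped ContDiff
open Vale.Agent.P366.Stmt Vale.Agent.P366K.C
open Vale.Agent.P366Z hiding Wt dd
open Vale.Agent.P366Y.C (Sy)
open Vale.Agent.P366P (cd)
open Vale.Agent.P366M (ll_lip rep loc repV)

noncomputable section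

namespace Vale.Agent.P366XR

variable {n : ℕ} {g K T k : Field n} {N N' u v : E n → ℝ} {X X' Y : Vf n} {V A : Set (E n)}
  {x y : E n}

theorem ll_mul (hu : LocallyLipschitz u) (hv : LocallyLipschitz v) :
    LocallyLipschitz fun x => u x * v x :=
  (show ContDiff ℝ 1 fun p : ℝ × ℝ => p.1 * p.2 from
    contDiff_fst.mul contDiff_snd).locallyLipschitz.comp (hu.prodMk hv)

theorem ll_sum {ι : Type} [Fintype ι] {F : ι → E n → ℝ} (h : ∀ i, LocallyLipschitz (F i)) :
    LocallyLipschitz fun x => ∑ i, F i x := by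
  rw [show (fun x => ∑ i, F i x) = ∑ i, F i from funext fun x => (Finset.sum_apply _ _ _).symm]
  exact Finset.sum_induction _ _ (fun _ _ => LocallyLipschitz.add) (LocallyLipschitz.const 0)
    fun i _ => h i

theorem ll_sm (hu : Smooth u) : LocallyLipschitz u :=
  (ContDiff.of_le hu (by norm_cast) : ContDiff ℝ 1 u).locallyLipschitz

theorem ll_lp (hu : Lip u) : LocallyLipschitz u := hu.choose_spec.locallyLipschitz

theorem int_dv (hg : Met g) (hY : ∀ i, LocallyLipschitz (Y i)) (hA : IsCompact A)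
    (h0 : ∀ x ∉ A, ∀ i, Y i x = 0) :
    Integrable (fun x => dv g Y x * dens g x) ∧ ∫ x, dv g Y x * dens g x = 0 := by
  have c : ∀ i, HasCompactSupport fun y => dens g y * Y i y := fun i =>
    .intro hA fun x r => by rw [h0 x r, mul_zero]
  have l := fun i => ll_lip (ll_mul (ll_sm hg.sm_dens) (hY i)) (c i)
  have I : ∀ i, Integrable (pd i fun y => dens g y * Y i y) := fun i => by
    obtain ⟨R, -, e⟩ := out_of_supp (c i)
    simpa using (l i).integrable_pd e (continuous_const (y := (1 : ℝ))) i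
  simp only [dv, div_mul_cancel₀ _ (hg.dens_pos _).ne']
  exact ⟨integrable_finsetSum _ fun i _ => I i, by
    rw [integral_finsetSum _ fun i _ => I i]
    exact Finset.sum_eq_zero fun i _ => integral_pd (l i) (c i) i⟩

theorem ext_lip (hV : IsOpen V) (hA : IsCompact A) (h : A ⊆ V) : ∃ O, IsOpen O ∧ A ⊆ O ∧ O ⊆ V ∧
    ∀ u : E n → ℝ, LocallyLipschitzOn V u → ∃ v, Lip v ∧ ∀ y ∈ O, u =ᶠ[𝓝 y] v := by
  obtain ⟨L, l1, l2, l3⟩ := exists_compact_between hA hV h
  refine ⟨_, isOpen_interior, l2, interior_subset.trans l3, fun u hu => ?_⟩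
  obtain ⟨c, hc⟩ := (hu.mono l3).exists_lipschitzOnWith_of_compact l1
  obtain ⟨v, v1, v2⟩ := hc.extend_real
  exact ⟨v, ⟨c, v1⟩, fun y hy => Eventually.mono (mem_interior_iff_mem_nhds.1 hy) v2⟩

theorem kid_congr (h1 : N y = N' y) (h2 : ∀ i, X i =ᶠ[𝓝 y] X' i) (h : Kid g K N' X' y) :
    Kid g K N X y := by
  simpa only [Kid, cd, fun i j => pd_congr (h2 i) j, fun i => (h2 i).eq_of_nhds, h1] using h

theorem li_pd (hu : Lip u) (i : Fin n) : LocallyIntegrable (pd i u) := by
  obtain ⟨c, -, hc⟩ := hu.pd_bd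
  exact (memLp_top_of_bound (measurable_pd hu.cont i).aestronglyMeasurable c
    (.of_forall fun x => hc x i)).locallyIntegrable le_top

theorem lin_k (hg : Met g) (hK : Sy K) (hk : Sy k) (y : E n) :
    Lmu g K (fun _ _ _ => 0) k y = -pr g (momT g k) K y ∧
      ∀ j, Lmo g K (fun _ _ _ => 0) k j y = dvT g (momT g k) j y := by
  have e : Wt g K (fun _ _ _ => 0) k = momT g k := by
    funext y i j
    simp [Wt, pr, ml, tr]
  refine ⟨?_, fun j => by simp [Lmo, Lmom, e, pr, tr]⟩
  have e1 : rs g (mom g fun _ _ _ => 0) = fun _ _ => 0 := by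
    funext i y
    simp [rs, mom, momT, tr, pd_const]
  have e2 : ∀ a b : Field n, Sy b → pr g (momT g a) b y = pr g a b y - tr g a y * tr g b y :=
    fun a b hb => by
      rw [pr_tr hg _ (hb.sy y), pr_tr hg _ (hb.sy y), tr_eq hg b,
        show mat (momT g a) y = mat a y - tr g a y • mat g y from rfl]
      simp only [Matrix.mul_sub, Matrix.sub_mul, Matrix.mul_smul, Matrix.smul_mul, inv_mul hg,
        Matrix.one_mul, trace_sub, trace_smul, smul_eq_mul]
  rw [Lmu, e1, e2 K k hk, e2 k K hK, pr_comm hg k K, mul_comm (tr g k y)]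
  simp [dv, pd_const, pr]

theorem exists_k (hn : 2 ≤ n) (hg : Met g) (hT : Sy T) :
    ∃ k, Sy k ∧ momT g k = T ∧ ∀ y, T y = 0 → k y = 0 := by
  have n1 : (n - 1 : ℝ) ≠ 0 := sub_ne_zero.2 (by exact_mod_cast (by omega : n ≠ 1))
  refine ⟨fun y i j => T y i j - tr g T y / (n - 1) * g y i j, ⟨fun i j => ContDiff.sub (hT.sm i j)
    (((sm_tr hg hT.sm).div_const _).mul (hg.sm i j)), fun y i j => by
      rw [hT.sy y i, hg.sy y i]⟩, ?_, fun y hy => ?_⟩
  · funext y i j
    have : tr g (fun y i j => T y i j - tr g T y / (n - 1) * g y i j) y = -(tr g T y / (n - 1)) := by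
      rw [tr_eq hg, show mat (fun y i j => T y i j - tr g T y / (n - 1) * g y i j) y =
        mat T y - (tr g T y / (n - 1)) • mat g y from rfl, Matrix.mul_sub, Matrix.mul_smul,
        inv_mul hg, trace_sub, trace_smul, trace_one, ← tr_eq hg, Fintype.card_fin, smul_eq_mul]
      field_simp
      ring
    rw [momT, this]
    ring
  · funext i j
    simp [tr, hy]

theorem wk0 (hn : 2 ≤ n) (hg : Met g) (hK : Sy K) (hV : IsOpen V) (hN : Lip N)
    (hX : ∀ i, Lip (X i)) (h : ∀ k A, Sy k → IsCompact A → A ⊆ V → (∀ y ∉ A, k y = 0) →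
      ∫ y, (N y * Lmu g K (fun _ _ _ => 0) k y +
        ∑ j, X j y * Lmo g K (fun _ _ _ => 0) k j y) * dens g y = 0) :
    ∀ᵐ y, y ∈ V → Kid g K N X y := by
  have lc : ∀ i j, LocallyIntegrable (cd g X i j) := fun i j => (li_pd (hX i) j).add
    (continuous_finsetSum _ fun k _ => (hg.sm_chr i j k).cont.mul (hX k).cont).locallyIntegrable
  have key : ∀ a b, ∀ᵐ y, y ∈ V → (∑ k, (g y b k * cd g X k a y + g y a k * cd g X k b y) +
      2 * N y * K y a b) * dens g y = 0 := by
    intro a b
    refine hV.ae_eq_zero_of_integral_contDiff_smul_eq_zero (LocallyIntegrable.locallyIntegrableOn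
      (LocallyIntegrable.mul_continuous hg.sm_dens.cont (LocallyIntegrable.add
        (locallyIntegrable_finsetSum _ fun k _ => ((lc k a).continuous_mul (hg.sm b k).cont).add
          ((lc k b).continuous_mul (hg.sm a k).cont)) ((continuous_const.mul hN.cont).mul
            (hK.sm a b).cont).locallyIntegrable)) V) fun φ s c t => ?_
    have hT : Sy fun y i j => φ y * (g y i a * g y j b + g y i b * g y j a) :=
      ⟨fun i j => s.mul (((hg.sm i a).mul (hg.sm j b)).add ((hg.sm i b).mul (hg.sm j a))),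
        fun y i j => by ring⟩
    have T0 : ∀ y ∉ tsupport φ, (fun i j => φ y * (g y i a * g y j b + g y i b * g y j a)) = 0 :=
      fun y hy => by
        funext i j
        simp [image_eq_zero_of_notMem_tsupport hy]
    have mT : ∀ y, mat (fun y i j => φ y * (g y i a * g y j b + g y i b * g y j a)) y =
        φ y • (mat g y * (single a b 1 + single b a 1) * mat g y) := fun y => by
      ext i j
      rw [Matrix.mul_add, Matrix.add_mul, Matrix.smul_apply, Matrix.add_apply, mul_apply, mul_apply]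
      simp only [mul_apply,
        Matrix.single, of_apply, ite_and, mul_ite, ite_mul, mul_one, mul_zero, zero_mul,
        Finset.sum_ite_eq, Finset.mem_univ, if_true, smul_eq_mul]
      simp only [mat, hg.sy y j]
    obtain ⟨k, hk, e, k0⟩ := exists_k hn hg hT
    have h1 := h k _ hk c t fun y hy => k0 y (T0 y hy)
    simp only [(lin_k hg hK hk _).1, (lin_k hg hK hk _).2, e] at h1
    generalize (fun y i j => φ y * (g y i a * g y j b + g y i b * g y j a)) = T at hT T0 mT h1
    replace T0 : ∀ y ∉ tsupport φ, T y = 0 := fun y hy => by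
      show mat T y = 0
      rw [mT, image_eq_zero_of_notMem_tsupport hy, zero_smul]
    obtain ⟨i1, i2⟩ := int_dv hg (Y := hi g (lo T X)) (fun i => ll_sum fun a =>
      ll_mul (ll_sm (hg.sm_up i a)) (ll_sum fun b => ll_mul (ll_sm (hT.sm a b)) (ll_lp (hX b)))) c
      fun y hy i => by
        rw [hi, ev_lo, show mat T y = 0 from T0 y hy]
        simp
    have i3 : Integrable fun y => (N y * -pr g T K y + ∑ j, X j y * dvT g T j y) * dens g y := by
      refine Continuous.integrable_of_hasCompactSupport (((hN.cont.mul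
        (sm_pr hg hT.sm hK.sm).cont.neg).add (continuous_finsetSum _ fun j _ => (hX j).cont.mul
          (sm_dvT hg hT.sm j).cont)).mul hg.sm_dens.cont) (.intro c fun y hy => ?_)
      have e : ∀ᶠ z in 𝓝 y, T z = 0 :=
        Eventually.mono ((isClosed_tsupport φ).isOpen_compl.mem_nhds hy) T0
      have : ∀ i j k, pd k (fun y => T y i j) y = 0 := fun i j k =>
        (pd_congr (h := fun _ => 0) (e.mono fun _ r => by simp [r]) k).trans (pd_const 0 k y)
      simp [dvT, this, T0 y hy, pr]
    rw [← sub_eq_zero.2 (i2.trans h1.symm), ← integral_sub i1 i3]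
    refine integral_congr_ae ((ae_all_iff.2 fun i => (hX i).ae_diff).mono fun y hy => ?_)
    have e1 : pr g T K y = φ y * (2 * K y a b) := by
      rw [pr_tr hg T (hK.sy y), mT]
      simp only [Matrix.mul_smul, Matrix.smul_mul, ← Matrix.mul_assoc, inv_mul hg, Matrix.one_mul,
        trace_smul, smul_eq_mul]
      rw [Matrix.mul_assoc _ (mat g y), mul_inv hg, Matrix.mul_one, Matrix.add_mul, trace_add,
        trace_single_mul, trace_single_mul]
      simp only [mat, hK.sy y b a, smul_eq_mul]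
      ring
    have e2 : trace ((mat g y)⁻¹ * (mat T y * Dm g X y)) =
        φ y * ∑ k, (g y b k * cd g X k a y + g y a k * cd g X k b y) := by
      rw [mT]
      simp only [Matrix.mul_smul, Matrix.smul_mul, ← Matrix.mul_assoc, inv_mul hg, Matrix.one_mul,
        trace_smul, smul_eq_mul]
      rw [Matrix.mul_assoc, Matrix.add_mul, trace_add, trace_single_mul, trace_single_mul,
        Finset.sum_add_distrib]
      simp only [one_smul]
      rfl
    simp only [dv_sh hg hT.sm hy, e1, e2, smul_eq_mul, ev, dotProduct, mul_comm (dvT g T _ y)]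
    ring
  filter_upwards [ae_all_iff.2 fun a => ae_all_iff.2 fun b => key a b] with y hy hv a b
  have := (mul_eq_zero.1 (hy a b hv)).resolve_right (hg.dens_pos y).ne'
  linarith

theorem wk1 (hn : 2 ≤ n) (hg : Met g) (hK : Sy K) (hV : IsOpen V) (hN : LocallyLipschitzOn V N)
    (hX : ∀ i, LocallyLipschitzOn V (X i))
    (h : ∀ k A, Sy k → IsCompact A → A ⊆ V → (∀ y ∉ A, k y = 0) →
      ∫ y, (N y * Lmu g K (fun _ _ _ => 0) k y +
        ∑ j, X j y * Lmo g K (fun _ _ _ => 0) k j y) * dens g y = 0) :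
    ∀ᵐ y, y ∈ V → Kid g K N X y := by
  refine measure_null_of_locally_null _ fun x hx => ?_
  obtain ⟨O, o1, o2, o3, o4⟩ := ext_lip hV isCompact_singleton
    (singleton_subset_iff.2 (Classical.not_imp.1 hx).1)
  obtain ⟨N', n1, n2⟩ := o4 N hN
  choose X' x1 x2 using fun i => o4 (X i) (hX i)
  refine ⟨{y | ¬(y ∈ O → Kid g K N' X' y)}, mem_nhdsWithin.2 ⟨O, o1, o2 rfl, fun y hy r => hy.2 fun _ =>
    kid_congr (n2 y hy.1).eq_of_nhds (fun i => x2 i y hy.1) (r hy.1)⟩,
    wk0 hn hg hK o1 n1 x1 fun k A hk a1 a2 k0 => ?_⟩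
  refine Eq.trans (integral_congr_ae (.of_forall fun y => ?_)) (h k A hk a1 (a2.trans o3) k0)
  by_cases hy : y ∈ A
  · simp only [(n2 y (a2 hy)).eq_of_nhds, fun i => (x2 i y (a2 hy)).eq_of_nhds]
  · have e : ∀ᶠ z in 𝓝 y, momT g k z = 0 := Eventually.mono
      (a1.isClosed.isOpen_compl.mem_nhds hy) fun z hz => by
        funext i j
        simp [momT, tr, k0 z hz]
    have : ∀ i j a, pd a (fun y => momT g k y i j) y = 0 := fun i j a =>
      (pd_congr (h := fun _ => 0) (e.mono fun _ r => by simp [r]) a).trans (pd_const 0 a y)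
    simp [(lin_k hg hK hk _).1, (lin_k hg hK hk _).2, dvT, this, e.self_of_nhds, pr]

/-- **WK** -/
theorem wk_of (hR : P366K.REP) : P366F.WK := by
  intro n M _ A hA N X hP e he
  have hV : IsOpen {y | 0 < A.D.F (e.symm y)} :=
    isOpen_lt continuous_const (A.D.dom.1.cont.comp (P366M.cont_symm he))
  have s : {y | 0 < A.D.F (e.symm y)} ⊆ {y | 0 ≤ A.D.F (e.symm y)} := fun y hy =>
    le_of_lt (a := (0 : ℝ)) hy
  refine wk1 (by linarith [hA.eqc.n3]) (A.D.met.rep he)
    ⟨A.D.smK e he, P366M.rep_sy A.D.syK e⟩ hV ((hP.lip e he).1.mono s)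
    (fun i => ((hP.lip e he).2 i).mono s) fun k B hk b1 b2 k0 => ?_
  rw [L.id_chart (h := fun _ _ _ => 0) hR hA.mm hP he ⟨fun _ _ => contDiff_const, fun _ _ _ => rfl⟩ hk b1 b2
    (fun _ _ => rfl) k0]
  simp [fun w => L.ar_zero (g := A.D.g) (L.zt_zero (e := e) (T := fun _ _ _ => 0) (B := ∅)
    (fun _ _ => rfl) (A.π w) (by simp))]

end Vale.Agent.P366XR
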